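import Crest.Agent.N336.Area.Step

/-!
# Row 336, area law geometry: half-levels, grids, and the two-colouring (helper51)
-/

set_option autoImplicit false

namespace Crest.Agent.N336.Area

/-- Within sup-distance `d` of `Γ`. -/
def Wd (Γ : Finset (ℤ × ℤ)) (d : ℤ) (z : ℤ × ℤ) : Prop := ∃ γ ∈ Γ, Near d z γ

/-- The nested unions of tiles `Z 0 ⊆ Z 1 ⊆ …`. -/
def Zl (Γ : Finset (ℤ × ℤ)) (n : ℕ) (z : ℤ × ℤ) : Prop :=
  ∃ γ ∈ Γ, Near (4 + 2 * ((n % 2 : ℕ) : ℤ)) (tile (2 ^ (n / 2 + 1)) z) (tile (2 ^ (n / 2 + 1)) γ)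

theorem ediv_sub_le {T : ℤ} (hT : 0 < T) (k x y : ℤ) (h : x - y ≤ k * T) : x / T - y / T ≤ k := by
  have : x / T ≤ (y + k * T) / T := Int.ediv_le_ediv hT (by omega)
  rw [Int.add_mul_ediv_right _ _ hT.ne'] at this
  omega

theorem sub_le_of_ediv {T : ℤ} (hT : 0 < T) (k x y : ℤ) (h : x / T - y / T ≤ k) :
    x - y ≤ (k + 1) * T := by
  have a1 := Int.mul_ediv_add_emod x T
  have a2 := Int.mul_ediv_add_emod y T
  have a3 := Int.emod_nonneg y hT.ne'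
  have a5 := Int.emod_lt_of_pos x hT
  nlinarith [mul_le_mul_of_nonneg_left h hT.le]

variable {Γ : Finset (ℤ × ℤ)}

theorem Zl_of_Wd {n : ℕ} {z : ℤ × ℤ}
    (h : Wd Γ ((4 + 2 * ((n % 2 : ℕ) : ℤ)) * 2 ^ (n / 2 + 1)) z) : Zl Γ n z := by
  obtain ⟨γ, hγ, h1, h2, h3, h4⟩ := h
  have hT : (0 : ℤ) < 2 ^ (n / 2 + 1) := by positivity
  exact ⟨γ, hγ, ediv_sub_le hT _ _ _ h1, ediv_sub_le hT _ _ _ h2, ediv_sub_le hT _ _ _ h3,
    ediv_sub_le hT _ _ _ h4⟩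

theorem Wd_of_Zl {n : ℕ} {z : ℤ × ℤ} (h : Zl Γ n z) :
    Wd Γ ((4 + 2 * ((n % 2 : ℕ) : ℤ) + 1) * 2 ^ (n / 2 + 1)) z := by
  obtain ⟨γ, hγ, h1, h2, h3, h4⟩ := h
  have hT : (0 : ℤ) < 2 ^ (n / 2 + 1) := by positivity
  exact ⟨γ, hγ, sub_le_of_ediv hT _ _ _ h1, sub_le_of_ediv hT _ _ _ h2, sub_le_of_ediv hT _ _ _ h3,
    sub_le_of_ediv hT _ _ _ h4⟩

theorem Zl_lip {n : ℕ} {z z' : ℤ × ℤ} (h : Zl Γ n z) (hn : Near (2 ^ (n / 2 + 1)) z z') :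
    Zl Γ (n + 1) z' := by
  obtain ⟨γ, hγ, h1⟩ := Wd_of_Zl h
  refine Zl_of_Wd ⟨γ, hγ, ?_⟩
  rcases Nat.mod_two_eq_zero_or_one n with e | e
  · have e1 : (n + 1) % 2 = 1 := by omega
    have e2 : (n + 1) / 2 = n / 2 := by omega
    rw [e] at h1
    rw [e1, e2]
    generalize (2 : ℤ) ^ (n / 2 + 1) = T at *
    unfold Near at *
    push_cast at *
    omega
  · have e1 : (n + 1) % 2 = 0 := by omega
    have e2 : (n + 1) / 2 = n / 2 + 1 := by omega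
    rw [e] at h1
    rw [e1, e2, pow_succ 2 (n / 2 + 1)]
    generalize (2 : ℤ) ^ (n / 2 + 1) = T at *
    unfold Near at *
    push_cast at *
    omega

theorem near_self {d : ℤ} (hd : 0 ≤ d) (z : ℤ × ℤ) : Near d z z := by unfold Near; omega

theorem Zl_mono {n m : ℕ} {z : ℤ × ℤ} (hnm : n ≤ m) (h : Zl Γ n z) : Zl Γ m z := by
  induction hnm with
  | refl => exact h
  | step _ ih => exact Zl_lip ih (near_self (by positivity) z)

theorem Zl_exists (hΓ : Γ.Nonempty) (z : ℤ × ℤ) : ∃ n, Zl Γ n z := by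
  obtain ⟨γ, hγ⟩ := hΓ
  set i := (z.1 - γ.1).natAbs + (z.2 - γ.2).natAbs with hi
  refine ⟨2 * i, Zl_of_Wd ⟨γ, hγ, ?_⟩⟩
  have e1 : 2 * i % 2 = 0 := by omega
  have e2 : 2 * i / 2 = i := by omega
  rw [e1, e2]
  have : (i : ℤ) < 2 ^ (i + 1) := by
    exact_mod_cast (Nat.lt_succ_self i).trans (Nat.lt_two_pow_self)
  generalize (2 : ℤ) ^ (i + 1) = T at *
  unfold Near
  push_cast
  omega

theorem tile_pow {s t : ℕ} (h : s ≤ t) {z z' : ℤ × ℤ} (e : tile (2 ^ s) z = tile (2 ^ s) z') :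
    tile (2 ^ t) z = tile (2 ^ t) z' := by
  obtain ⟨d, rfl⟩ := Nat.exists_eq_add_of_le h
  simp only [tile, Prod.mk.injEq] at e ⊢
  have hs : (0 : ℤ) ≤ 2 ^ s := by positivity
  rw [pow_add, ← Int.ediv_ediv_of_nonneg hs, ← Int.ediv_ediv_of_nonneg hs,
    ← Int.ediv_ediv_of_nonneg hs, ← Int.ediv_ediv_of_nonneg hs, e.1, e.2]
  exact ⟨rfl, rfl⟩

open Classical in
/-- The half-level of a point. -/
noncomputable def ht (Γ : Finset (ℤ × ℤ)) (z : ℤ × ℤ) : ℕ := sInf {n | Zl Γ n z}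

theorem ht_le_iff (hΓ : Γ.Nonempty) {z : ℤ × ℤ} {n : ℕ} : ht Γ z ≤ n ↔ Zl Γ n z :=
  ⟨fun h => Zl_mono h (Nat.sInf_mem (Zl_exists hΓ z)), fun h => Nat.sInf_le h⟩

theorem ht_lip (hΓ : Γ.Nonempty) {z z' : ℤ × ℤ} {n : ℕ} (h : ht Γ z ≤ n)
    (hn : Near (2 ^ (n / 2 + 1)) z z') : ht Γ z' ≤ n + 1 :=
  (ht_le_iff hΓ).2 (Zl_lip ((ht_le_iff hΓ).1 h) hn)

theorem Zl_tile {n s : ℕ} (h : s ≤ n / 2 + 1) {z z' : ℤ × ℤ}
    (e : tile (2 ^ s) z = tile (2 ^ s) z') : Zl Γ n z ↔ Zl Γ n z' := by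
  unfold Zl; rw [tile_pow h e]

theorem ht_tile (hΓ : Γ.Nonempty) {s : ℕ} {z z' : ℤ × ℤ} (h : 2 * s + 2 ≤ ht Γ z)
    (e : tile (2 ^ s) z = tile (2 ^ s) z') : ht Γ z' = ht Γ z := by
  have a1 : ht Γ z' ≤ ht Γ z :=
    (ht_le_iff hΓ).2 ((Zl_tile (by omega) e).1 ((ht_le_iff hΓ).1 le_rfl))
  have a2 : ¬ ht Γ z' ≤ ht Γ z - 1 := fun h' => by
    have := (ht_le_iff hΓ).2 ((Zl_tile (by omega) e).2 ((ht_le_iff hΓ).1 h'))
    omega
  omega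

/-- Cell index of the level-`k` grid with shift `s k`. -/
def gr (p : ℕ) (s : ℕ → ℕ) (k : ℕ) (a : ℤ) : ℤ :=
  (a - 2 ^ k * (2 * s k + 1)) / 2 ^ (k + 1 + k / p)

/-- `a` lies on a line of the level-`k` grid. -/
def Line (p : ℕ) (s : ℕ → ℕ) (k : ℕ) (a : ℤ) : Prop :=
  2 ^ (k + 1 + k / p) ∣ a - 2 ^ k * (2 * s k + 1)

theorem ediv_pred {T : ℤ} (hT : 0 < T) (x : ℤ) :
    (T ∣ x → (x - 1) / T + 1 = x / T) ∧ (¬ T ∣ x → (x - 1) / T = x / T) := by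
  constructor
  · rintro ⟨m, rfl⟩
    rw [Int.mul_ediv_cancel_left _ hT.ne', show T * m - 1 = (T - 1) + (m - 1) * T by ring,
      Int.add_mul_ediv_right _ _ hT.ne', Int.ediv_eq_zero_of_lt (by omega) (by omega)]
    ring
  · intro h
    have a1 := Int.mul_ediv_add_emod x T
    have a3 := Int.emod_nonneg x hT.ne'
    have a5 := Int.emod_lt_of_pos x hT
    have a6 : x % T ≠ 0 := fun h' => h (Int.dvd_of_emod_eq_zero h')
    rw [show x - 1 = (x % T - 1) + (x / T) * T by linarith, Int.add_mul_ediv_right _ _ hT.ne',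
      Int.ediv_eq_zero_of_lt (by omega) (by omega)]
    ring

variable {p : ℕ} {s s₁ s₂ : ℕ → ℕ}

theorem gr_line {k : ℕ} {a : ℤ} (h : Line p s k a) : gr p s k (a - 1) + 1 = gr p s k a := by
  unfold gr
  rw [show a - 1 - 2 ^ k * (2 * s k + 1) = a - 2 ^ k * (2 * s k + 1) - 1 by ring]
  exact (ediv_pred (by positivity) _).1 h

theorem gr_noline {k : ℕ} {a : ℤ} (h : ¬ Line p s k a) : gr p s k (a - 1) = gr p s k a := by
  unfold gr
  rw [show a - 1 - 2 ^ k * (2 * s k + 1) = a - 2 ^ k * (2 * s k + 1) - 1 by ring]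
  exact (ediv_pred (by positivity) _).2 h

theorem line_val {k : ℕ} {a : ℤ} (h : Line p s k a) : 2 ^ k ∣ a ∧ ¬ 2 ^ (k + 1) ∣ a := by
  obtain ⟨m, hm⟩ := h
  have e : a = 2 ^ k * (2 * (s k + 2 ^ (k / p) * m) + 1) := by
    rw [pow_add, pow_add] at hm; linarith
  refine ⟨⟨_, e⟩, fun ⟨c, hc⟩ => ?_⟩
  rw [hc, pow_succ, mul_assoc] at e
  have := mul_left_cancel₀ (by positivity : (2 : ℤ) ^ k ≠ 0) e
  omega

theorem gr_tile {t k : ℕ} (h : t ≤ k) {a a' : ℤ} (e : a / 2 ^ t = a' / 2 ^ t) :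
    gr p s k a = gr p s k a' := by
  obtain ⟨d, rfl⟩ := Nat.exists_eq_add_of_le h
  have hs : (0 : ℤ) < 2 ^ t := by positivity
  have key : ∀ x : ℤ, gr p s (t + d) x =
      (x / 2 ^ t - 2 ^ d * (2 * s (t + d) + 1)) / 2 ^ (d + 1 + (t + d) / p) := by
    intro x
    unfold gr
    rw [show t + d + 1 + (t + d) / p = t + (d + 1 + (t + d) / p) by ring,
      pow_add (2 : ℤ) t (d + 1 + (t + d) / p),
      ← Int.ediv_ediv_of_nonneg hs.le, show x - 2 ^ (t + d) * (2 * (s (t + d) : ℤ) + 1) =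
        x + (-(2 ^ d * (2 * s (t + d) + 1))) * 2 ^ t by ring, Int.add_mul_ediv_right _ _ hs.ne']
    rfl
  rw [key, key, e]

/-- Layer of a point. -/
noncomputable def lay (Γ : Finset (ℤ × ℤ)) (z : ℤ × ℤ) : ℕ := (ht Γ z - 1) / 2

/-- Sum of the two cell indices. -/
def gs (p : ℕ) (s₁ s₂ : ℕ → ℕ) (k : ℕ) (z : ℤ × ℤ) : ℤ := gr p s₁ k z.1 + gr p s₂ k z.2

/-- The colour. -/
noncomputable def col (Γ : Finset (ℤ × ℤ)) (p : ℕ) (s₁ s₂ : ℕ → ℕ) (z : ℤ × ℤ) : Bool :=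
  decide (((lay Γ z : ℤ) + gs p s₁ s₂ (ht Γ z / 2 - 1) z + gs p s₁ s₂ (ht Γ z / 2) z) % 2 = 0)

/-- The label (layer and cell). -/
noncomputable def lab (Γ : Finset (ℤ × ℤ)) (p : ℕ) (s₁ s₂ : ℕ → ℕ) (z : ℤ × ℤ) : ℕ × ℤ × ℤ :=
  (lay Γ z, gr p s₁ (lay Γ z) z.1, gr p s₂ (lay Γ z) z.2)

theorem const_tile (hΓ : Γ.Nonempty) {t : ℕ} {z z' : ℤ × ℤ} (h : 2 * t + 2 ≤ ht Γ z)
    (e : tile (2 ^ t) z = tile (2 ^ t) z') :
    col Γ p s₁ s₂ z = col Γ p s₁ s₂ z' ∧ lab Γ p s₁ s₂ z = lab Γ p s₁ s₂ z' := by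
  have a := ht_tile hΓ h e
  have e1 : z.1 / 2 ^ t = z'.1 / 2 ^ t := congrArg Prod.fst e
  have e2 : z.2 / 2 ^ t = z'.2 / 2 ^ t := congrArg Prod.snd e
  unfold col lab lay gs
  rw [a, gr_tile (by omega : t ≤ ht Γ z / 2 - 1) e1, gr_tile (by omega : t ≤ ht Γ z / 2 - 1) e2,
    gr_tile (by omega : t ≤ ht Γ z / 2) e1, gr_tile (by omega : t ≤ ht Γ z / 2) e2,
    gr_tile (by omega : t ≤ (ht Γ z - 1) / 2) e1, gr_tile (by omega : t ≤ (ht Γ z - 1) / 2) e2]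
  exact ⟨rfl, rfl⟩

/-- Neighbouring points of the same colour have the same label. -/
theorem pix (hΓ : Γ.Nonempty) {z z' : ℤ × ℤ} {a : ℤ} (Ln : ℕ → Prop) (hn : Near 1 z z')
    (h2 : 2 ≤ ht Γ z) (h2' : 2 ≤ ht Γ z')
    (h1 : ∀ k, ¬ Ln k → gr p s₁ k z.1 = gr p s₁ k z'.1 ∧ gr p s₂ k z.2 = gr p s₂ k z'.2)
    (h3 : ∀ k, Ln k → gs p s₁ s₂ k z = gs p s₁ s₂ k z' + 1)
    (h4 : ∀ k, Ln k → 2 ^ k ∣ a ∧ ¬ 2 ^ (k + 1) ∣ a)
    (h5 : ∀ t : ℕ, ¬ 2 ^ t ∣ a → tile (2 ^ t) z = tile (2 ^ t) z')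
    (hc : col Γ p s₁ s₂ z = col Γ p s₁ s₂ z') : lab Γ p s₁ s₂ z = lab Γ p s₁ s₂ z' := by
  have one : ∀ n : ℕ, (1 : ℤ) ≤ 2 ^ n := fun n => one_le_pow₀ (by norm_num)
  have l1 : ht Γ z' ≤ ht Γ z + 1 := ht_lip hΓ le_rfl (by
    have := one (ht Γ z / 2 + 1); unfold Near at *; omega)
  have l2 : ht Γ z ≤ ht Γ z' + 1 := ht_lip hΓ le_rfl (by
    have := one (ht Γ z' / 2 + 1); unfold Near at *; omega)
  have h1' : ∀ k, ¬ Ln k → gs p s₁ s₂ k z = gs p s₁ s₂ k z' := fun k hk => by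
    unfold gs; rw [(h1 k hk).1, (h1 k hk).2]
  have nl : ∀ k t, k < t → 2 ^ t ∣ a → ¬ Ln k := fun k t hkt ht hk =>
    (h4 k hk).2 ((pow_dvd_pow 2 hkt).trans ht)
  have nl2 : ∀ k t, t < k → Ln t → ¬ Ln k := fun k t hkt ht hk => nl t k hkt (h4 k hk).1 ht
  have same : lay Γ z = lay Γ z' → ¬ Ln (lay Γ z) → lab Γ p s₁ s₂ z = lab Γ p s₁ s₂ z' := by
    intro e hk
    unfold lab
    rw [← e, (h1 _ hk).1, (h1 _ hk).2]
  unfold col at hc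
  rw [decide_eq_decide] at hc
  have dv : ∀ n, (ht Γ z ≤ n ↔ ¬ ht Γ z' ≤ n) → 2 ^ (n / 2 + 1) ∣ a := fun n h => by
    by_contra hcon
    have := Zl_tile (Γ := Γ) (n := n) le_rfl (h5 _ hcon)
    rw [← ht_le_iff hΓ, ← ht_le_iff hΓ] at this
    tauto
  by_cases e : ht Γ z = ht Γ z'
  · have el : lay Γ z = lay Γ z' := by unfold lay; rw [e]
    refine same el fun hk => ?_
    rw [← e, ← el] at hc
    have b1 := h3 _ hk
    by_cases e' : ht Γ z / 2 = lay Γ z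
    · have b2 := h1' (lay Γ z - 1) (nl _ _ (by omega) (h4 _ hk).1)
      rw [e'] at hc
      omega
    · have e'' : ht Γ z / 2 = lay Γ z + 1 := by unfold lay at *; omega
      have b2 := h1' (lay Γ z + 1) (nl2 _ _ (by omega) hk)
      rw [e'', Nat.add_sub_cancel] at hc
      omega
  · set n := min (ht Γ z) (ht Γ z') with hn'
    have hd := dv n (by omega)
    by_cases ho : n % 2 = 1
    · exact same (by unfold lay; omega) (nl _ _ (by unfold lay; omega) hd)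
    · exfalso
      have e1 : ht Γ z / 2 = n / 2 := by omega
      have e2 : ht Γ z' / 2 = n / 2 := by omega
      have b1 := h1' (n / 2) (nl _ _ (by omega) hd)
      have b2 := h1' (n / 2 - 1) (nl _ _ (by omega) hd)
      rw [e1, e2] at hc
      have : (lay Γ z : ℤ) = lay Γ z' + 1 ∨ (lay Γ z' : ℤ) = lay Γ z + 1 := by
        unfold lay; omega
      omega

theorem pix_h (hΓ : Γ.Nonempty) {a b : ℤ} (h2 : 2 ≤ ht Γ (a, b)) (h2' : 2 ≤ ht Γ (a - 1, b))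
    (hc : col Γ p s₁ s₂ (a, b) = col Γ p s₁ s₂ (a - 1, b)) :
    lab Γ p s₁ s₂ (a, b) = lab Γ p s₁ s₂ (a - 1, b) :=
  pix hΓ (a := a) (fun k => Line p s₁ k a) (by unfold Near; simp) h2 h2'
    (fun k hk => ⟨(gr_noline hk).symm, rfl⟩)
    (fun k hk => by have := gr_line hk; unfold gs; simp only; omega) (fun k hk => line_val hk)
    (fun t ht => by
      simp only [tile, Prod.mk.injEq, and_true]
      exact ((ediv_pred (by positivity) a).2 ht).symm) hc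

theorem pix_v (hΓ : Γ.Nonempty) {a b : ℤ} (h2 : 2 ≤ ht Γ (a, b)) (h2' : 2 ≤ ht Γ (a, b - 1))
    (hc : col Γ p s₁ s₂ (a, b) = col Γ p s₁ s₂ (a, b - 1)) :
    lab Γ p s₁ s₂ (a, b) = lab Γ p s₁ s₂ (a, b - 1) :=
  pix hΓ (a := b) (fun k => Line p s₂ k b) (by unfold Near; simp) h2 h2'
    (fun k hk => ⟨rfl, (gr_noline hk).symm⟩)
    (fun k hk => by have := gr_line hk; unfold gs; simp only; omega) (fun k hk => line_val hk)
    (fun t ht => by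
      simp only [tile, Prod.mk.injEq, true_and]
      exact ((ediv_pred (by positivity) b).2 ht).symm) hc

/-- A point within `T` of a multiple `a` of `T` lies in the tile of `a` or of `a - 1`. -/
theorem ediv_side {T a x : ℤ} (hT : 0 < T) (ha : T ∣ a) (h1 : a - T ≤ x) (h2 : x < a + T) :
    x / T = (if a ≤ x then a else a - 1) / T := by
  obtain ⟨m, rfl⟩ := ha
  split_ifs with h
  · rw [Int.mul_ediv_cancel_left _ hT.ne', show x = (x - T * m) + m * T by ring,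
      Int.add_mul_ediv_right _ _ hT.ne', Int.ediv_eq_zero_of_lt (by omega) (by omega)]
    ring
  · rw [show x = (x - T * m + T) + (m - 1) * T by ring, show T * m - 1 = (T - 1) + (m - 1) * T by ring,
      Int.add_mul_ediv_right _ _ hT.ne', Int.add_mul_ediv_right _ _ hT.ne',
      Int.ediv_eq_zero_of_lt (by omega) (by omega), Int.ediv_eq_zero_of_lt (by omega) (by omega)]

theorem exists_cut {T x x' : ℤ} (hT : 0 < T) (h : x / T ≠ x' / T) :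
    ∃ a, T ∣ a ∧ ((x < a ∧ a ≤ x') ∨ (x' < a ∧ a ≤ x)) := by
  have key : ∀ y y' : ℤ, y / T < y' / T → ∃ a, T ∣ a ∧ y < a ∧ a ≤ y' := fun y y' hy => by
    refine ⟨T * (y' / T), ⟨_, rfl⟩, ?_, Int.mul_ediv_self_le hT.ne'⟩
    have a1 := Int.mul_ediv_add_emod y T
    have a5 := Int.emod_lt_of_pos y hT
    nlinarith [mul_le_mul_of_nonneg_left (show y / T + 1 ≤ y' / T by omega) hT.le]
  rcases lt_or_gt_of_ne h with h | h
  · obtain ⟨a, h1, h2⟩ := key _ _ h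
    exact ⟨a, h1, Or.inl h2⟩
  · obtain ⟨a, h1, h2⟩ := key _ _ h
    exact ⟨a, h1, Or.inr h2⟩

end Crest.Agent.N336.Area
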