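import Crest.Agent.N336.Area.Sep

/-!
# Row 336, area law geometry: counting vertices and labels (helper51)
-/

set_option autoImplicit false

namespace Crest.Agent.N336.Area

theorem sum_biUnion_le {ι α : Type} [DecidableEq ι] [DecidableEq α] (I : Finset ι)
    (V : ι → Finset α) (f : α → ℝ) (hf : ∀ a, 0 ≤ f a) :
    ∑ a ∈ I.biUnion V, f a ≤ ∑ i ∈ I, ∑ a ∈ V i, f a := by
  induction I using Finset.induction_on with
  | empty => simp
  | insert i I hi ih =>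
    rw [Finset.biUnion_insert, Finset.sum_insert hi]
    have := Finset.sum_union_inter (s₁ := V i) (s₂ := I.biUnion V) (f := f)
    have h2 : 0 ≤ ∑ a ∈ V i ∩ I.biUnion V, f a := Finset.sum_nonneg fun a _ => hf a
    linarith

theorem sum_half_div {h : ℕ} (hh : 1 ≤ h) (N : ℕ) :
    ∑ k ∈ Finset.range N, (1 / 2 : ℝ) ^ (k / h) ≤ 2 * h := by
  have key : ∀ n, ∑ k ∈ Finset.range (h * n), (1 / 2 : ℝ) ^ (k / h) =
      2 * h - 2 * h * (1 / 2) ^ n := by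
    intro n
    induction n with
    | zero => simp
    | succ n ih =>
      rw [Nat.mul_succ, Finset.sum_range_add, ih,
        Finset.sum_congr rfl (g := fun _ => (1 / 2 : ℝ) ^ n) fun k hk => by
          rw [Nat.mul_add_div hh, Nat.div_eq_of_lt (Finset.mem_range.1 hk), Nat.add_zero]]
      simp only [Finset.sum_const, Finset.card_range, nsmul_eq_mul]
      ring
  have h1 : ∑ k ∈ Finset.range N, (1 / 2 : ℝ) ^ (k / h) ≤
      ∑ k ∈ Finset.range (h * N), (1 / 2 : ℝ) ^ (k / h) :=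
    Finset.sum_le_sum_of_subset_of_nonneg
      (Finset.range_subset_range.2 (Nat.le_mul_of_pos_left _ hh)) fun _ _ _ => by positivity
  rw [key] at h1
  have : (0 : ℝ) ≤ 2 * h * (1 / 2) ^ N := by positivity
  linarith

theorem pigeon {α : Type} (L : Finset α) {N : ℕ} (hN : 0 < N) (P : ℕ → α → Prop)
    [∀ j, DecidablePred (P j)] (hP : ∀ a j j', j < N → j' < N → P j a → P j' a → j = j') :
    ∃ j, N * (L.filter (P j)).card ≤ L.card := by
  classical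
  have h1 : ∑ j ∈ Finset.range N, (L.filter (P j)).card ≤ L.card := by
    rw [← Finset.card_biUnion]
    · exact Finset.card_le_card (Finset.biUnion_subset.2 fun _ _ => Finset.filter_subset _ _)
    · intro j hj j' hj' hne
      refine Finset.disjoint_left.2 fun a ha ha' => hne ?_
      exact hP a j j' (Finset.mem_range.1 hj) (Finset.mem_range.1 hj')
        (Finset.mem_filter.1 ha).2 (Finset.mem_filter.1 ha').2
  obtain ⟨j, hj, hm⟩ := Finset.exists_min_image (Finset.range N)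
    (fun j => (L.filter (P j)).card) ⟨0, Finset.mem_range.2 hN⟩
  refine ⟨j, le_trans ?_ h1⟩
  have := Finset.card_nsmul_le_sum (Finset.range N) _ _ hm
  simpa using this

/-- Candidate vertices for the level-`k` grid lines. -/
noncomputable def Lat (Γ : Finset (ℤ × ℤ)) (k : ℕ) : Finset (ℤ × ℤ) :=
  Γ.biUnion fun γ => (Finset.Icc (γ.1 / 2 ^ (k - 2) - 160) (γ.1 / 2 ^ (k - 2) + 160) ×ˢ
    Finset.Icc (γ.2 / 2 ^ (k - 2) - 160) (γ.2 / 2 ^ (k - 2) + 160)).image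
      fun u => (2 ^ (k - 2) * u.1, 2 ^ (k - 2) * u.2)

theorem card_Lat (Γ : Finset (ℤ × ℤ)) (k : ℕ) : (Lat Γ k).card ≤ 321 ^ 2 * Γ.card := by
  refine Finset.card_biUnion_le.trans ?_
  rw [mul_comm]
  refine Finset.sum_le_card_nsmul _ _ _ fun γ _ => Finset.card_image_le.trans (le_of_eq ?_)
  rw [Finset.card_product, Int.card_Icc, Int.card_Icc]
  have e1 : (γ.1 / 2 ^ (k - 2) + 160 + 1 - (γ.1 / 2 ^ (k - 2) - 160)).toNat = 321 := by omega
  have e2 : (γ.2 / 2 ^ (k - 2) + 160 + 1 - (γ.2 / 2 ^ (k - 2) - 160)).toNat = 321 := by omega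
  rw [e1, e2]; norm_num

theorem mem_Lat {Γ : Finset (ℤ × ℤ)} {k : ℕ} {v : ℤ × ℤ} (h1 : 2 ^ (k - 2) ∣ v.1)
    (h2 : 2 ^ (k - 2) ∣ v.2) (h : Wd Γ (160 * 2 ^ (k - 2)) v) : v ∈ Lat Γ k := by
  obtain ⟨γ, hγ, a1, a2, a3, a4⟩ := h
  have hT : (0 : ℤ) < 2 ^ (k - 2) := by positivity
  have b1 := ediv_sub_le hT _ _ _ a1
  have b2 := ediv_sub_le hT _ _ _ a2
  have b3 := ediv_sub_le hT _ _ _ a3
  have b4 := ediv_sub_le hT _ _ _ a4
  refine Finset.mem_biUnion.2 ⟨γ, hγ, Finset.mem_image.2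
    ⟨(v.1 / 2 ^ (k - 2), v.2 / 2 ^ (k - 2)), ?_, ?_⟩⟩
  · simp only [Finset.mem_product, Finset.mem_Icc]; omega
  · rw [Int.mul_ediv_cancel' h1, Int.mul_ediv_cancel' h2]

open Classical in
theorem exists_shift (p : ℕ) (L : ℕ → Finset (ℤ × ℤ)) (f : ℤ × ℤ → ℤ) :
    ∃ s : ℕ → ℕ, ∀ k, 2 ^ (k / p) * ((L k).filter fun v => Line p s k (f v)).card ≤ (L k).card := by
  have : ∀ k, ∃ j : ℕ, 2 ^ (k / p) * ((L k).filter fun v =>
      Line p (fun _ => j) k (f v)).card ≤ (L k).card := fun k =>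
    pigeon (L k) (by positivity) (fun j v => Line p (fun _ => j) k (f v))
      fun a j j' hj hj' h h' => by
        have h1 := dvd_sub h' h
        rw [show f a - 2 ^ k * (2 * (j' : ℤ) + 1) - (f a - 2 ^ k * (2 * (j : ℤ) + 1)) =
          2 ^ (k + 1) * ((j : ℤ) - j') by ring, pow_add (2 : ℤ) (k + 1),
          mul_dvd_mul_iff_left (by positivity)] at h1
        have a1 : (j : ℤ) < 2 ^ (k / p) := by exact_mod_cast hj
        have a2 : (j' : ℤ) < 2 ^ (k / p) := by exact_mod_cast hj'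
        have := Int.eq_zero_of_abs_lt_dvd h1 (by rw [abs_lt]; omega)
        omega
  choose s hs using this
  exact ⟨s, hs⟩

/-- Labels of level `i`. -/
noncomputable def Labs (Γ : Finset (ℤ × ℤ)) (p : ℕ) (s₁ s₂ : ℕ → ℕ) (i : ℕ) :
    Finset (ℕ × ℤ × ℤ) :=
  Γ.biUnion fun γ => {i} ×ˢ (Finset.Icc (gr p s₁ i γ.1 - 20) (gr p s₁ i γ.1 + 20) ×ˢ
    Finset.Icc (gr p s₂ i γ.2 - 20) (gr p s₂ i γ.2 + 20))

variable {Γ : Finset (ℤ × ℤ)} {p : ℕ} {s₁ s₂ : ℕ → ℕ}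

theorem card_Labs (i : ℕ) : (Labs Γ p s₁ s₂ i).card ≤ 41 ^ 2 * Γ.card := by
  refine Finset.card_biUnion_le.trans ?_
  rw [mul_comm]
  refine Finset.sum_le_card_nsmul _ _ _ fun γ _ => le_of_eq ?_
  rw [Finset.card_product, Finset.card_product, Int.card_Icc, Int.card_Icc]
  have e1 : (gr p s₁ i γ.1 + 20 + 1 - (gr p s₁ i γ.1 - 20)).toNat = 41 := by omega
  have e2 : (gr p s₂ i γ.2 + 20 + 1 - (gr p s₂ i γ.2 - 20)).toNat = 41 := by omega
  rw [e1, e2]; norm_num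

theorem fst_Labs {i : ℕ} {a : ℕ × ℤ × ℤ} (h : a ∈ Labs Γ p s₁ s₂ i) : a.1 = i := by
  obtain ⟨γ, -, h⟩ := Finset.mem_biUnion.1 h
  exact Finset.mem_singleton.1 (Finset.mem_product.1 h).1

theorem wd_of_lay (hΓ : Γ.Nonempty) (z : ℤ × ℤ) : Wd Γ (5 * 2 ^ (lay Γ z + 2)) z :=
  wd_of_ht hΓ (i := lay Γ z + 1) (by unfold lay; omega)

theorem mem_Labs (hΓ : Γ.Nonempty) (z : ℤ × ℤ) : lab Γ p s₁ s₂ z ∈ Labs Γ p s₁ s₂ (lay Γ z) := by
  obtain ⟨γ, hγ, a1, a2, a3, a4⟩ := wd_of_lay hΓ z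
  unfold lab
  generalize lay Γ z = i at *
  have hT : (0 : ℤ) < 2 ^ (i + 1 + i / p) := by positivity
  have hle : (2 : ℤ) ^ (i + 2) ≤ 2 * 2 ^ (i + 1 + i / p) := by
    rw [← pow_succ']
    exact pow_le_pow_right₀ (by norm_num) (by generalize i / p = j; omega)
  have key : ∀ (s : ℕ → ℕ) (a b : ℤ), a - b ≤ 5 * 2 ^ (i + 2) → gr p s i a - gr p s i b ≤ 20 :=
    fun s a b h => ediv_sub_le hT 20 _ _ (by omega)
  have b1 := key s₁ _ _ a1
  have b2 := key s₁ _ _ a2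
  have b3 := key s₂ _ _ a3
  have b4 := key s₂ _ _ a4
  refine Finset.mem_biUnion.2 ⟨γ, hγ, ?_⟩
  simp only [Finset.mem_product, Finset.mem_Icc, Finset.mem_singleton, true_and]
  omega

theorem box_of_gr {i : ℕ} {s : ℕ → ℕ} {a : ℤ} :
    2 ^ (i + 1 + i / p) * gr p s i a + 2 ^ i * (2 * s i + 1) ≤ a ∧
      a < 2 ^ (i + 1 + i / p) * gr p s i a + 2 ^ i * (2 * s i + 1) + 2 ^ (i + 1 + i / p) := by
  have hT : (0 : ℤ) < 2 ^ (i + 1 + i / p) := by positivity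
  have a1 := Int.mul_ediv_add_emod (a - 2 ^ i * (2 * s i + 1)) (2 ^ (i + 1 + i / p))
  have a3 := Int.emod_nonneg (a - 2 ^ i * (2 * s i + 1)) hT.ne'
  have a5 := Int.emod_lt_of_pos (a - 2 ^ i * (2 * s i + 1)) hT
  unfold gr
  omega

/-- A four-valent vertex of the colouring. -/
def Vx (Γ : Finset (ℤ × ℤ)) (p : ℕ) (s₁ s₂ : ℕ → ℕ) (v : ℤ × ℤ) : Prop :=
  7 ≤ lay Γ v ∧ 2 ^ (lay Γ v - 2) ∣ v.1 ∧ 2 ^ (lay Γ v - 2) ∣ v.2 ∧
    ∀ y, Box v (4 * 2 ^ (lay Γ v - 6)) y → chk (col Γ p s₁ s₂ v) v y = col Γ p s₁ s₂ y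

theorem vx_sep (hΓ : Γ.Nonempty) {v v' : ℤ × ℤ} (h : Vx Γ p s₁ s₂ v) (h' : Vx Γ p s₁ s₂ v')
    (hne : v ≠ v') (z : ℤ × ℤ) (hz : Box v (2 * 2 ^ (lay Γ v - 6)) z) :
    ¬ Box v' (4 * 2 ^ (lay Γ v' - 6)) z := by
  intro hz'
  obtain ⟨a1, a2, a3, -⟩ := h
  obtain ⟨b1, b2, b3, -⟩ := h'
  have mono : ∀ {a b : ℕ}, a ≤ b → (2 : ℤ) ^ a ≤ 2 ^ b := fun h =>
    pow_le_pow_right₀ (by norm_num) h
  have p6 : ∀ l, 6 ≤ l → (2 : ℤ) ^ l = 64 * 2 ^ (l - 6) := fun l hl => by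
    rw [show (64 : ℤ) = 2 ^ 6 by norm_num, ← pow_add]; congr 1; omega
  have pos : ∀ l : ℕ, (0 : ℤ) < 2 ^ l := fun l => by positivity
  have c1 : lay Γ v' ≤ lay Γ v + 1 := by
    by_contra hcon
    have := ht_near hΓ (i := lay Γ v') (z := v') (y := v) (by omega) le_rfl (by
      have := mono (show lay Γ v - 6 ≤ lay Γ v' - 6 by omega)
      have := p6 (lay Γ v') (by omega)
      have := pos (lay Γ v - 6)
      unfold Box Near at *; omega)
    unfold lay at *; omega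
  have c2 : lay Γ v ≤ lay Γ v' + 1 := by
    by_contra hcon
    have := ht_near hΓ (i := lay Γ v) (z := v) (y := v') (by omega) le_rfl (by
      have := mono (show lay Γ v' - 6 ≤ lay Γ v - 6 by omega)
      have := p6 (lay Γ v) (by omega)
      have := pos (lay Γ v' - 6)
      unfold Box Near at *; omega)
    unfold lay at *; omega
  set m := min (lay Γ v) (lay Γ v') - 2 with hm
  have d1 : (2 : ℤ) ^ m ∣ v.1 - v'.1 :=
    dvd_sub ((pow_dvd_pow 2 (by omega)).trans a2) ((pow_dvd_pow 2 (by omega)).trans b2)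
  have d2 : (2 : ℤ) ^ m ∣ v.2 - v'.2 :=
    dvd_sub ((pow_dvd_pow 2 (by omega)).trans a3) ((pow_dvd_pow 2 (by omega)).trans b3)
  have e1 := mono (show lay Γ v - 6 ≤ m - 3 by omega)
  have e2 := mono (show lay Γ v' - 6 ≤ m - 3 by omega)
  have e3 : (2 : ℤ) ^ m = 8 * 2 ^ (m - 3) := by
    rw [show (8 : ℤ) = 2 ^ 3 by norm_num, ← pow_add]; congr 1; omega
  have e4 := pos (m - 3)
  have f1 := Int.eq_zero_of_abs_lt_dvd d1 (by rw [abs_lt]; unfold Box at *; omega)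
  have f2 := Int.eq_zero_of_abs_lt_dvd d2 (by rw [abs_lt]; unfold Box at *; omega)
  exact hne (Prod.ext (by omega) (by omega))

open Classical in
/-- Vertices on the level-`k` lines. -/
noncomputable def Vk (Γ : Finset (ℤ × ℤ)) (p : ℕ) (s₁ s₂ : ℕ → ℕ) (k : ℕ) : Finset (ℤ × ℤ) :=
  (Lat Γ k).filter fun v =>
    (Line p s₁ k v.1 ∨ Line p s₂ k v.2) ∧ lay Γ v ≤ k + 1 ∧ Vx Γ p s₁ s₂ v

/-- Separation in terms of the vertex sets. -/
theorem sep_Vk (hΓ : Γ.Nonempty) {i : ℕ} (hi : 8 ≤ i) {z z' : ℤ × ℤ} (hz : lay Γ z = i)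
    (hz' : i ≤ lay Γ z') (hn : Near (2 * 2 ^ (i - 8)) z z')
    (hc : col Γ p s₁ s₂ z = col Γ p s₁ s₂ z') (hl : lab Γ p s₁ s₂ z ≠ lab Γ p s₁ s₂ z') :
    ∃ k ≤ i + 1, ∃ v ∈ Vk Γ p s₁ s₂ k, Box v (2 ^ (lay Γ v - 6)) z := by
  classical
  have mono : ∀ {a b : ℕ}, a ≤ b → (2 : ℤ) ^ a ≤ 2 ^ b := fun h =>
    pow_le_pow_right₀ (by norm_num) h
  have pos : ∀ l : ℕ, (0 : ℤ) < 2 ^ l := fun l => by positivity
  have e0 : (2 : ℤ) * 2 ^ (i - 8) = 2 ^ (i - 7) := by rw [← pow_succ']; congr 1; omega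
  rw [e0] at hn
  obtain ⟨v, h1, h2, h3, h4, k, k1, k2, h5⟩ := sep hΓ (t := i - 1) (by omega) (by omega)
    (mono (by omega : i - 7 ≤ i - 1)) hn hc hl
  have l1 : 2 * i ≤ ht Γ v := ht_near hΓ (by omega) hz.ge (by
    have := mono (by omega : i - 7 ≤ i)
    unfold Box Near at *; omega)
  have l2 : ht Γ v ≤ ht Γ z + 1 := ht_lip hΓ le_rfl (by
    have := mono (show i - 7 ≤ ht Γ z / 2 + 1 by unfold lay at hz; omega)
    unfold Box Near at *; omega)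
  have l3 : i - 1 ≤ lay Γ v := by unfold lay; omega
  have l4 : lay Γ v ≤ i + 1 := by unfold lay at *; omega
  refine ⟨k, by omega, v, Finset.mem_filter.2 ⟨mem_Lat ((pow_dvd_pow 2 (by omega)).trans h2)
    ((pow_dvd_pow 2 (by omega)).trans h3) ?_, h5, by omega, by omega,
    (pow_dvd_pow 2 (by omega)).trans h2, (pow_dvd_pow 2 (by omega)).trans h3, fun y hy => h4 y ?_⟩,
    ?_⟩
  · obtain ⟨γ, hγ, a⟩ := wd_of_lay hΓ v
    refine ⟨γ, hγ, ?_⟩
    have b1 := mono (show lay Γ v + 2 ≤ k - 2 + 5 by omega)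
    rw [pow_add (2 : ℤ) (k - 2) 5] at b1
    unfold Near at *; omega
  · have b1 := mono (show lay Γ v - 6 + 2 ≤ i - 1 by omega)
    rw [pow_add] at b1
    unfold Box at *; omega
  · have b1 := mono (show i - 7 ≤ lay Γ v - 6 by omega)
    unfold Box at *; omega

/-- Good shifts: the weighted number of vertices is linear in `Γ`. -/
theorem exists_shifts (Γ : Finset (ℤ × ℤ)) {p : ℕ} (hp : 1 ≤ p) :
    ∃ s₁ s₂ : ℕ → ℕ, ∀ N, ∑ v ∈ (Finset.range N).biUnion (Vk Γ p s₁ s₂),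
      (2 : ℝ) ^ ((lay Γ v - 6) / (2 * p)) ≤ 16 * 321 ^ 2 * p * Γ.card := by
  classical
  obtain ⟨s₁, h₁⟩ := exists_shift p (Lat Γ) Prod.fst
  obtain ⟨s₂, h₂⟩ := exists_shift p (Lat Γ) Prod.snd
  refine ⟨s₁, s₂, fun N => (sum_biUnion_le _ _ _ fun _ => by positivity).trans ?_⟩
  have key : ∀ k, ∑ v ∈ Vk Γ p s₁ s₂ k, (2 : ℝ) ^ ((lay Γ v - 6) / (2 * p)) ≤
      4 * 321 ^ 2 * Γ.card * (1 / 2) ^ (k / (2 * p)) := by
    intro k
    set m := k / (2 * p) with hm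
    have a1 : ∑ v ∈ Vk Γ p s₁ s₂ k, (2 : ℝ) ^ ((lay Γ v - 6) / (2 * p)) ≤
        (Vk Γ p s₁ s₂ k).card • (2 : ℝ) ^ m := Finset.sum_le_card_nsmul _ _ _ fun v hv =>
      pow_le_pow_right₀ (by norm_num) (Nat.div_le_div_right (by
        have := (Finset.mem_filter.1 hv).2.2.1; omega))
    have a2 : (Vk Γ p s₁ s₂ k).card ≤ ((Lat Γ k).filter fun v => Line p s₁ k v.1).card +
        ((Lat Γ k).filter fun v => Line p s₂ k v.2).card := by
      refine le_trans (Finset.card_le_card fun v hv => ?_) (Finset.card_union_le _ _)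
      obtain ⟨b1, b2, -⟩ := Finset.mem_filter.1 hv
      simp only [Finset.mem_union, Finset.mem_filter]
      tauto
    have a3 : 2 ^ (2 * m) ≤ 2 ^ (k / p) := Nat.pow_le_pow_right (by norm_num) (by
      rw [Nat.le_div_iff_mul_le hp]
      have := Nat.div_mul_le_self k (2 * p)
      nlinarith)
    have a4 : 2 ^ (2 * m) * (Vk Γ p s₁ s₂ k).card ≤ 2 * (321 ^ 2 * Γ.card) := by
      have b1 := h₁ k
      have b2 := h₂ k
      have b3 := card_Lat Γ k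
      calc 2 ^ (2 * m) * (Vk Γ p s₁ s₂ k).card ≤ 2 ^ (k / p) * (_ + _) := Nat.mul_le_mul a3 a2
        _ ≤ _ := by rw [mul_add]; omega
    have a5 : (2 : ℝ) ^ (2 * m) * (Vk Γ p s₁ s₂ k).card ≤ 2 * (321 ^ 2 * Γ.card) := by
      exact_mod_cast a4
    rw [nsmul_eq_mul] at a1
    refine a1.trans ?_
    have a6 : (0 : ℝ) < 2 ^ m := by positivity
    rw [one_div, inv_pow, ← div_eq_mul_inv, le_div_iff₀ a6]
    rw [two_mul m, pow_add] at a5
    have : (0 : ℝ) ≤ Γ.card := by positivity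
    nlinarith
  refine (Finset.sum_le_sum fun k _ => key k).trans ?_
  rw [← Finset.mul_sum]
  have := sum_half_div (h := 2 * p) (by omega) N
  push_cast at this
  have h0 : (0 : ℝ) ≤ 4 * 321 ^ 2 * Γ.card := by positivity
  nlinarith [mul_le_mul_of_nonneg_left this h0]

theorem sum_Labs (N : ℕ) : ∑ a ∈ (Finset.range N).biUnion (Labs Γ p s₁ s₂),
    (1 / 2 : ℝ) ^ a.1 ≤ 2 * 41 ^ 2 * Γ.card := by
  refine (sum_biUnion_le _ _ _ fun _ => by positivity).trans ?_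
  have key : ∀ i, ∑ a ∈ Labs Γ p s₁ s₂ i, (1 / 2 : ℝ) ^ a.1 ≤ 41 ^ 2 * Γ.card * (1 / 2) ^ (i / 1) := by
    intro i
    rw [Finset.sum_congr rfl (g := fun _ => (1 / 2 : ℝ) ^ i) fun a ha => by rw [fst_Labs ha],
      Finset.sum_const, nsmul_eq_mul, Nat.div_one]
    have : ((Labs Γ p s₁ s₂ i).card : ℝ) ≤ 41 ^ 2 * Γ.card := by exact_mod_cast card_Labs i
    gcongr
  refine (Finset.sum_le_sum fun k _ => key k).trans ?_
  rw [← Finset.mul_sum]
  have := sum_half_div (h := 1) le_rfl N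
  push_cast at this
  have h0 : (0 : ℝ) ≤ 41 ^ 2 * Γ.card := by positivity
  nlinarith [mul_le_mul_of_nonneg_left this h0]

end Crest.Agent.N336.Area
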