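import Crest.Agent.N336.Area.Count

/-!
# Row 336: the area law from thin-buffer decoupling (helper51)
-/

set_option autoImplicit false

namespace Crest.Agent.N336.Area

variable {Λ : Type} [DecidableEq Λ] {g : ℕ} {C : ℝ}

/-- A one-colour family avoiding all vertices has cost linear in `Γ`. -/
theorem patches (K : Ctx Λ g C) (hg : 1 ≤ g) (hC : 0 ≤ C) (hΓ : K.Γ.Nonempty) (s₁ s₂ : ℕ → ℕ)
    (F : Finset Λ) (hF : F ⊆ K.A) (h0 : ∀ x ∈ F, 52 * g ≤ lay K.Γ (K.pos x))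
    (hsep : ∀ x ∈ F, ∀ y ∈ F, lay K.Γ (K.pos x) ≤ lay K.Γ (K.pos y) →
      Near (2 * 2 ^ (lay K.Γ (K.pos x) - 8)) (K.pos x) (K.pos y) →
      lab K.Γ (4 * g) s₁ s₂ (K.pos x) = lab K.Γ (4 * g) s₁ s₂ (K.pos y)) :
    K.φ F ≤ K.φ ∅ + C * (2 * 41 ^ 2 * K.Γ.card) := by
  have key : ∀ L : Finset (ℕ × ℤ × ℤ),
      K.φ (F.filter fun x => lab K.Γ (4 * g) s₁ s₂ (K.pos x) ∈ L) ≤
        K.φ ∅ + C * ∑ a ∈ L, (1 / 2 : ℝ) ^ a.1 := by
    intro L
    induction L using Finset.induction_on_min_value (fun a : ℕ × ℤ × ℤ => a.1) with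
    | empty => simp
    | insert a L ha hmin ih =>
      rw [Finset.sum_insert ha]
      set X := F.filter fun x => lab K.Γ (4 * g) s₁ s₂ (K.pos x) ∈ L
      set X' := F.filter fun x => lab K.Γ (4 * g) s₁ s₂ (K.pos x) = a
      have e : (F.filter fun x => lab K.Γ (4 * g) s₁ s₂ (K.pos x) ∈ insert a L) = X ∪ X' := by
        ext x
        simp only [X, X', Finset.mem_filter, Finset.mem_union, Finset.mem_insert]; tauto
      rw [e]
      have hp : 0 ≤ C * (1 / 2 : ℝ) ^ a.1 := by positivity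
      rcases X'.eq_empty_or_nonempty with h | ⟨x₀, hx₀⟩
      · rw [h, Finset.union_empty]; linarith
      obtain ⟨i, u, v⟩ := a
      have hX' : ∀ x ∈ X', x ∈ F ∧ lay K.Γ (K.pos x) = i ∧ gr (4 * g) s₁ i (K.pos x).1 = u ∧
          gr (4 * g) s₂ i (K.pos x).2 = v := fun x hx => by
        obtain ⟨a1, a2⟩ := Finset.mem_filter.1 hx
        simp only [lab, Prod.mk.injEq] at a2
        obtain ⟨rfl, a3, a4⟩ := a2
        exact ⟨a1, rfl, a3, a4⟩
      have hi : 52 * g ≤ i := (hX' x₀ hx₀).2.1 ▸ h0 x₀ (hX' x₀ hx₀).1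
      have := K.step X X' (2 ^ (i + 1 + i / (4 * g)) * u + 2 ^ i * (2 * s₁ i + 1),
          2 ^ (i + 1 + i / (4 * g)) * v + 2 ^ i * (2 * s₂ i + 1)) (i + 1 + i / (4 * g)) (i - 8)
        ((Finset.filter_subset _ _).trans hF) ((Finset.filter_subset _ _).trans hF)
        (by generalize i / (4 * g) = j; omega)
        (by
          have a1 : i / (4 * g) = i / g / 4 := by rw [Nat.div_div_eq_div_mul, mul_comm]
          have a2 : 52 ≤ i / g := (Nat.le_div_iff_mul_le hg).2 hi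
          have a3 : i / g ≤ (2 * (i + 1 + i / (4 * g)) - (i - 8) + 8) / g :=
            Nat.div_le_div_right (by generalize i / (4 * g) = j; omega)
          generalize (2 * (i + 1 + i / (4 * g)) - (i - 8) + 8) / g = j at *
          rw [a1]
          generalize i / g = m at *
          omega)
        (fun x hx => by
          obtain ⟨-, -, a3, a4⟩ := hX' x hx
          have b1 := box_of_gr (p := 4 * g) (i := i) (s := s₁) (a := (K.pos x).1)
          have b2 := box_of_gr (p := 4 * g) (i := i) (s := s₂) (a := (K.pos x).2)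
          rw [a3] at b1
          rw [a4] at b2
          have : (0 : ℤ) < 2 ^ (i + 1 + i / (4 * g)) := by positivity
          unfold Box; simp only; omega)
        (fun x hx y hy hn => by
          obtain ⟨a1, a2, -, -⟩ := hX' x hx
          obtain ⟨b1, b2⟩ := Finset.mem_filter.1 hy
          have b3 : i ≤ lay K.Γ (K.pos y) := hmin _ b2
          have := hsep x a1 y b1 (by omega) (by rwa [a2])
          rw [(Finset.mem_filter.1 hx).2] at this
          exact ha (this ▸ b2))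
        (fun x hx γ hγ hn => by
          refine far_gam hΓ (i := i) (by omega) (hX' x hx).2.1.ge ⟨γ, hγ, ?_⟩
          have b1 : (2 : ℤ) ^ (i - 8) ≤ 2 ^ (i + 1) := pow_le_pow_right₀ (by norm_num) (by omega)
          have : (0 : ℤ) < 2 ^ (i + 1) := by positivity
          unfold Near at *; omega)
      have h2 : C / 2 ^ (i + 1 + i / (4 * g)) ≤ C * (1 / 2 : ℝ) ^ i := by
        rw [one_div, inv_pow, ← div_eq_mul_inv]
        exact div_le_div_of_nonneg_left hC (by positivity)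
          (pow_le_pow_right₀ (by norm_num) (by generalize i / (4 * g) = j; omega))
      simp only at *
      linarith
  set N := F.sup (fun x => lay K.Γ (K.pos x)) + 1
  have h1 := key ((Finset.range N).biUnion (Labs K.Γ (4 * g) s₁ s₂))
  rw [Finset.filter_true_of_mem fun x hx => Finset.mem_biUnion.2 ⟨_, Finset.mem_range.2
    (Nat.lt_succ_of_le (Finset.le_sup (f := fun x => lay K.Γ (K.pos x)) hx)), mem_Labs hΓ _⟩] at h1
  have h2 := mul_le_mul_of_nonneg_left (sum_Labs (Γ := K.Γ) (p := 4 * g) (s₁ := s₁) (s₂ := s₂) N) hC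
  linarith

theorem card_low (K : Ctx Λ g C) (hΓ : K.Γ.Nonempty) (n : ℕ) :
    (K.A.filter fun x => lay K.Γ (K.pos x) < n).card ≤ (2 * (5 * 2 ^ (n + 1) + 1)) ^ 2 * K.Γ.card := by
  have : (K.A.filter fun x => lay K.Γ (K.pos x) < n) ⊆ K.Γ.biUnion fun γ =>
      K.A.filter fun x => Box γ (5 * 2 ^ (n + 1) + 1 : ℕ) (K.pos x) := fun x hx => by
    obtain ⟨a1, a2⟩ := Finset.mem_filter.1 hx
    obtain ⟨γ, hγ, h⟩ := wd_of_ht hΓ (i := n) (z := K.pos x) (by unfold lay at a2; omega)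
    refine Finset.mem_biUnion.2 ⟨γ, hγ, Finset.mem_filter.2 ⟨a1, ?_⟩⟩
    push_cast
    unfold Box Near at *; omega
  refine (Finset.card_le_card this).trans (Finset.card_biUnion_le.trans ?_)
  rw [mul_comm _ K.Γ.card]
  exact Finset.sum_le_card_nsmul _ _ _ fun γ _ =>
    card_box K γ _ _ fun x hx => (Finset.mem_filter.1 hx).2

theorem no_boundary (K : Ctx Λ g C) (hg : 1 ≤ g) (hΓ : K.Γ = ∅) :
    K.φ K.A ≤ K.φ ∅ := by
  set M := K.A.sup fun x => (K.pos x).1.natAbs + (K.pos x).2.natAbs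
  have key : ∀ w, 8 * g + M ≤ w → K.φ K.A ≤ K.φ ∅ + C / 2 ^ w := fun w hw => by
    have := K.step ∅ K.A (0, 0) w w (Finset.empty_subset _) le_rfl le_rfl
      (by
        have : 8 ≤ (2 * w - w + 8) / g := (Nat.le_div_iff_mul_le hg).2 (by omega)
        omega)
      (fun x hx => by
        have a1 : (K.pos x).1.natAbs + (K.pos x).2.natAbs ≤ M :=
          Finset.le_sup (f := fun x => (K.pos x).1.natAbs + (K.pos x).2.natAbs) hx
        have a2 : (w : ℤ) < 2 ^ w := by exact_mod_cast Nat.lt_two_pow_self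
        unfold Box; simp only; omega)
      (by simp) (by simp [hΓ])
    rwa [Finset.empty_union] at this
  refine le_of_forall_pos_le_add fun ε hε => ?_
  obtain ⟨n, hn⟩ := exists_nat_gt (C / ε)
  have h1 := key (8 * g + M + n) (by omega)
  have h2 : (n : ℝ) ≤ 2 ^ (8 * g + M + n) := by
    exact_mod_cast (Nat.le_add_left n _).trans Nat.lt_two_pow_self.le
  have h3 : C / 2 ^ (8 * g + M + n) ≤ ε := by
    rw [div_le_iff₀ (by positivity)]
    rw [div_lt_iff₀ hε] at hn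
    nlinarith
  linarith

/-- The geometric theorem: two families and a small discarded set. -/
theorem geo (g : ℕ) (hg : 1 ≤ g) {C lam : ℝ} (hC : 0 ≤ C) (hl : 0 ≤ lam) :
    ∃ M : ℝ, 0 ≤ M ∧ ∀ (Λ : Type) [DecidableEq Λ] (K : Ctx Λ g C), ∃ X Y D : Finset Λ,
      X ⊆ K.A ∧ Y ⊆ K.A ∧ K.A ⊆ X ∪ Y ∪ D ∧
        K.φ X + K.φ Y + lam * D.card ≤ 2 * K.φ ∅ + M * K.Γ.card := by
  classical
  obtain ⟨B, hB, HB⟩ := res_exists g (2 * (4 * g)) hg (by omega) hC hl
  refine ⟨2 * (C * (2 * 41 ^ 2)) + B * (16 * 321 ^ 2 * (4 * g : ℕ)) +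
    lam * ((2 * (5 * 2 ^ (52 * g + 1) + 1)) ^ 2 : ℕ), by positivity, fun Λ _ K => ?_⟩
  rcases K.Γ.eq_empty_or_nonempty with hΓ | hΓ
  · refine ⟨K.A, K.A, ∅, le_rfl, le_rfl, by simp, ?_⟩
    have := no_boundary K hg hΓ
    rw [hΓ]; simp only [Finset.card_empty, Nat.cast_zero, mul_zero]; linarith
  obtain ⟨s₁, s₂, hs⟩ := exists_shifts K.Γ (p := 4 * g) (by omega)
  set N := K.A.sup (fun x => lay K.Γ (K.pos x)) + 2
  set V := (Finset.range N).biUnion (Vk K.Γ (4 * g) s₁ s₂)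
  have hV : ∀ v ∈ V, Vx K.Γ (4 * g) s₁ s₂ v := fun v hv => by
    obtain ⟨k, -, h⟩ := Finset.mem_biUnion.1 hv
    exact (Finset.mem_filter.1 h).2.2.2
  have hU : ∀ v : ℤ × ℤ, ∃ U, v ∈ V → Res K lam U v (2 ^ (lay K.Γ v - 6))
      (B * 2 ^ ((lay K.Γ v - 6) / (2 * (4 * g)))) := fun v => by
    by_cases hv : v ∈ V
    · obtain ⟨U, h⟩ := HB Λ K (lay K.Γ v - 6) v fun γ hγ hb => by
        refine far_gam hΓ (i := lay K.Γ v) (by have := (hV v hv).1; omega) le_rfl ⟨γ, hγ, ?_⟩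
        have b1 : (2 : ℤ) ^ (lay K.Γ v - 6) ≤ 2 ^ (lay K.Γ v + 1) :=
          pow_le_pow_right₀ (by norm_num) (by omega)
        unfold Box Near at *; omega
      exact ⟨U, fun _ => h⟩
    · exact ⟨∅, fun h => absurd h hv⟩
  choose U hU using hU
  set F : Bool → Finset Λ := fun b => (K.A \ V.biUnion U).filter fun x =>
    52 * g ≤ lay K.Γ (K.pos x) ∧ col K.Γ (4 * g) s₁ s₂ (K.pos x) = b
  have hF : ∀ b, ∀ x ∈ F b, x ∈ K.A ∧ x ∉ V.biUnion U ∧ 52 * g ≤ lay K.Γ (K.pos x) ∧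
      col K.Γ (4 * g) s₁ s₂ (K.pos x) = b := fun b x hx => by
    obtain ⟨a1, a2⟩ := Finset.mem_filter.1 hx
    exact ⟨(Finset.mem_sdiff.1 a1).1, (Finset.mem_sdiff.1 a1).2, a2⟩
  have hP : ∀ b, K.φ (F b) ≤ K.φ ∅ + C * (2 * 41 ^ 2 * K.Γ.card) := fun b =>
    patches K hg hC hΓ s₁ s₂ (F b) (fun x hx => (hF b x hx).1) (fun x hx => (hF b x hx).2.2.1)
      fun x hx y hy hxy hn => by
        by_contra hne
        obtain ⟨a1, a2, a3, a4⟩ := hF b x hx
        obtain ⟨k, hk, v, hv, hb⟩ := sep_Vk hΓ (by omega) rfl hxy hn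
          (a4.trans (hF b y hy).2.2.2.symm) hne
        have hvV : v ∈ V := Finset.mem_biUnion.2 ⟨k, Finset.mem_range.2 (by
          have : lay K.Γ (K.pos x) ≤ K.A.sup fun x => lay K.Γ (K.pos x) :=
            Finset.le_sup (f := fun x => lay K.Γ (K.pos x)) a1
          omega), hv⟩
        exact a2 (Finset.mem_biUnion.2 ⟨v, hvV, (hU v hvV).2.1 x a1 hb⟩)
  obtain ⟨F', D, k1, k2, k3, k4⟩ := multi K hl V U id (fun v => 2 ^ (lay K.Γ v - 6))
    (fun v => B * 2 ^ ((lay K.Γ v - 6) / (2 * (4 * g)))) (col K.Γ (4 * g) s₁ s₂)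
    (fun _ _ => by positivity) hU
    (fun v hv v' hv' hne z hz => vx_sep hΓ (hV v hv) (hV v' hv') hne z hz) F
    (fun b x hx => (hF b x hx).1)
    (fun v hv b => Finset.disjoint_left.2 fun x hx hxU =>
      (hF b x hx).2.1 (Finset.mem_biUnion.2 ⟨v, hv, hxU⟩))
    (fun v hv b x hx hb => ((hV v hv).2.2.2 _ hb).trans (hF b x hx).2.2.2)
  have hA : ∀ b, F' b ⊆ K.A := fun b x hx => by
    rcases Finset.mem_union.1 (k2 b hx) with h | h
    · exact (hF b x h).1
    · obtain ⟨v, hv, h⟩ := Finset.mem_biUnion.1 h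
      exact (hU v hv).1 h
  set D₀ := K.A.filter fun x => lay K.Γ (K.pos x) < 52 * g
  refine ⟨F' true, F' false, D ∪ D₀, hA _, hA _, fun x hx => ?_, ?_⟩
  · by_cases h1 : x ∈ V.biUnion U
    · have := k3 h1
      simp only [Finset.mem_union] at this ⊢; tauto
    by_cases h2 : lay K.Γ (K.pos x) < 52 * g
    · exact Finset.mem_union_right _ (Finset.mem_union_right _ (Finset.mem_filter.2 ⟨hx, h2⟩))
    have h3 : x ∈ F' (col K.Γ (4 * g) s₁ s₂ (K.pos x)) :=
      k1 _ (Finset.mem_filter.2 ⟨Finset.mem_sdiff.2 ⟨hx, h1⟩, by omega, rfl⟩)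
    cases hb : col K.Γ (4 * g) s₁ s₂ (K.pos x) <;> rw [hb] at h3 <;>
      simp only [Finset.mem_union] <;> tauto
  · have a1 : ((D ∪ D₀).card : ℝ) ≤ D.card + D₀.card := by
      exact_mod_cast Finset.card_union_le D D₀
    have a2 : (D₀.card : ℝ) ≤ ((2 * (5 * 2 ^ (52 * g + 1) + 1)) ^ 2 : ℕ) * K.Γ.card := by
      exact_mod_cast card_low K hΓ (52 * g)
    have a3 := mul_le_mul_of_nonneg_left (hs N) hB
    rw [← Finset.mul_sum] at k4
    have a4 := hP true
    have a5 := hP false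
    have a6 := mul_le_mul_of_nonneg_left (a1.trans (add_le_add le_rfl a2)) hl
    unfold Ctx.Φ at k4
    generalize (((2 * (5 * 2 ^ (52 * g + 1) + 1)) ^ 2 : ℕ) : ℝ) = E at *
    nlinarith

end Crest.Agent.N336.Area

namespace Crest.Agent.N336

open Area in
/-- The area law from thin-buffer decoupling. -/
theorem area (hE : EntStmt) (hT : TBStmt) : AreaStmt := by
  intro q R J Δ hq hJ hΔ
  obtain ⟨g, C, hg, hC, H⟩ := exists_ctx hE hT q R J Δ hq hJ hΔ
  have hl : 0 ≤ 2 * Real.log q := mul_nonneg (by norm_num) (Real.log_natCast_nonneg q)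
  obtain ⟨M, hM, HM⟩ := geo g hg hC hl
  refine ⟨M + 1, by positivity, fun Λ _ _ s A => ?_⟩
  obtain ⟨K, hA, hΓ, hφ⟩ := H Λ s A
  obtain ⟨X, Y, D, h1, h2, h3, h4⟩ := HM Λ K
  obtain ⟨hc, hb, hs, -⟩ := hE q Λ s.Ω s.gap.1
  rw [hA] at h1 h2 h3
  rw [hφ, hΓ] at h4
  have h5 := two_family hs hc hb h1 h2 h3
  have h6 : MI s.Ω ∅ Aᶜ ≤ 0 := by
    have := (hb ∅).2
    unfold MI
    rw [Finset.empty_union]
    simp only [Finset.card_empty, Nat.cast_zero, zero_mul] at this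
    linarith
  have h7 : ((gam s A).card : ℝ) ≤ s.bd A := by exact_mod_cast card_gam s A
  have h8 : (0 : ℝ) ≤ s.bd A := by positivity
  simp only at h4
  nlinarith [mul_le_mul_of_nonneg_left h7 hM]

end Crest.Agent.N336
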