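import Crest.Agent.N336.Area.Col

/-!
# Row 336, area law geometry: separation of equal-colour cells away from vertices (helper51)
-/

set_option autoImplicit false

namespace Crest.Agent.N336.Area

variable {Γ : Finset (ℤ × ℤ)} {p : ℕ} {s₁ s₂ : ℕ → ℕ}

theorem ht_near (hΓ : Γ.Nonempty) {i : ℕ} (hi : 1 ≤ i) {z y : ℤ × ℤ} (hz : i ≤ lay Γ z)
    (hn : Near (2 ^ i) y z) : 2 * i ≤ ht Γ y := by
  by_contra hcon
  have := ht_lip hΓ (n := 2 * i - 1) (z := y) (z' := z) (by omega)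
    (by rwa [show (2 * i - 1) / 2 + 1 = i by omega])
  unfold lay at hz; omega

theorem far_gam (hΓ : Γ.Nonempty) {i : ℕ} (hi : 1 ≤ i) {z : ℤ × ℤ} (hz : i ≤ lay Γ z) :
    ¬ Wd Γ (4 * 2 ^ (i + 1)) z := fun h => by
  have : Zl Γ (2 * i) z := Zl_of_Wd (by
    rw [show 2 * i % 2 = 0 by omega, show 2 * i / 2 = i by omega]; simpa using h)
  rw [← ht_le_iff hΓ] at this
  unfold lay at hz; omega

theorem wd_of_ht (hΓ : Γ.Nonempty) {i : ℕ} {z : ℤ × ℤ} (hz : ht Γ z ≤ 2 * i) :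
    Wd Γ (5 * 2 ^ (i + 1)) z := by
  have := Wd_of_Zl ((ht_le_iff hΓ).1 hz)
  rw [show 2 * i % 2 = 0 by omega, show 2 * i / 2 = i by omega] at this
  simpa using this

theorem hor (hΓ : Γ.Nonempty) {t : ℕ} {x x' b : ℤ} (h1 : x - x' ≤ 2 ^ t) (h2 : x' - x ≤ 2 ^ t)
    (hh : ∀ y, y - x ≤ 2 ^ t → x - y ≤ 2 ^ t → 2 * t + 2 ≤ ht Γ (y, b))
    (hc : col Γ p s₁ s₂ (x, b) = col Γ p s₁ s₂ (x', b)) :
    lab Γ p s₁ s₂ (x, b) = lab Γ p s₁ s₂ (x', b) := by
  have hT : (0 : ℤ) < 2 ^ t := by positivity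
  have ct : ∀ y y', y - x ≤ 2 ^ t → x - y ≤ 2 ^ t → y / 2 ^ t = y' / 2 ^ t →
      col Γ p s₁ s₂ (y, b) = col Γ p s₁ s₂ (y', b) ∧
        lab Γ p s₁ s₂ (y, b) = lab Γ p s₁ s₂ (y', b) := fun y y' a1 a2 e =>
    const_tile hΓ (hh y a1 a2) (by simp only [tile, e])
  by_cases e : x / 2 ^ t = x' / 2 ^ t
  · exact (ct x x' (by omega) (by omega) e).2
  obtain ⟨a, ha, h⟩ := exists_cut hT e
  have e1 := ediv_side (x := x) hT ha (by omega) (by omega)
  have e2 := ediv_side (x := x') hT ha (by omega) (by omega)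
  have c1 := ct x _ (by omega) (by omega) e1
  have c2 := ct x' _ (by omega) (by omega) e2
  have k1 := hh a (by omega) (by omega)
  rcases h with h | h
  · rw [if_neg (by omega)] at c1
    rw [if_pos (by omega)] at c2
    have k2 := hh (a - 1) (by omega) (by omega)
    rw [c1.2, c2.2]
    exact (pix_h hΓ (by omega) (by omega) (by rw [← c1.1, ← c2.1, hc])).symm
  · rw [if_pos (by omega)] at c1
    rw [if_neg (by omega)] at c2
    have k2 := hh (a - 1) (by omega) (by omega)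
    rw [c1.2, c2.2]
    exact pix_h hΓ (by omega) (by omega) (by rw [← c1.1, ← c2.1, hc])

theorem ver (hΓ : Γ.Nonempty) {t : ℕ} {x x' b : ℤ} (h1 : x - x' ≤ 2 ^ t) (h2 : x' - x ≤ 2 ^ t)
    (hh : ∀ y, y - x ≤ 2 ^ t → x - y ≤ 2 ^ t → 2 * t + 2 ≤ ht Γ (b, y))
    (hc : col Γ p s₁ s₂ (b, x) = col Γ p s₁ s₂ (b, x')) :
    lab Γ p s₁ s₂ (b, x) = lab Γ p s₁ s₂ (b, x') := by
  have hT : (0 : ℤ) < 2 ^ t := by positivity
  have ct : ∀ y y', y - x ≤ 2 ^ t → x - y ≤ 2 ^ t → y / 2 ^ t = y' / 2 ^ t →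
      col Γ p s₁ s₂ (b, y) = col Γ p s₁ s₂ (b, y') ∧
        lab Γ p s₁ s₂ (b, y) = lab Γ p s₁ s₂ (b, y') := fun y y' a1 a2 e =>
    const_tile hΓ (hh y a1 a2) (by simp only [tile, e])
  by_cases e : x / 2 ^ t = x' / 2 ^ t
  · exact (ct x x' (by omega) (by omega) e).2
  obtain ⟨a, ha, h⟩ := exists_cut hT e
  have e1 := ediv_side (x := x) hT ha (by omega) (by omega)
  have e2 := ediv_side (x := x') hT ha (by omega) (by omega)
  have c1 := ct x _ (by omega) (by omega) e1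
  have c2 := ct x' _ (by omega) (by omega) e2
  have k1 := hh a (by omega) (by omega)
  rcases h with h | h
  · rw [if_neg (by omega)] at c1
    rw [if_pos (by omega)] at c2
    have k2 := hh (a - 1) (by omega) (by omega)
    rw [c1.2, c2.2]
    exact (pix_v hΓ (by omega) (by omega) (by rw [← c1.1, ← c2.1, hc])).symm
  · rw [if_pos (by omega)] at c1
    rw [if_neg (by omega)] at c2
    have k2 := hh (a - 1) (by omega) (by omega)
    rw [c1.2, c2.2]
    exact pix_v hΓ (by omega) (by omega) (by rw [← c1.1, ← c2.1, hc])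

/-- Separation: two close points of the same colour and different labels are close to a
four-valent vertex on a grid line. -/
theorem sep (hΓ : Γ.Nonempty) {t : ℕ} {z z' : ℤ × ℤ} (hz : lay Γ z = t + 1)
    (hz' : t + 1 ≤ lay Γ z') {r : ℤ} (hr : r ≤ 2 ^ t) (hn : Near r z z')
    (hc : col Γ p s₁ s₂ z = col Γ p s₁ s₂ z') (hl : lab Γ p s₁ s₂ z ≠ lab Γ p s₁ s₂ z') :
    ∃ v : ℤ × ℤ, Box v r z ∧ 2 ^ t ∣ v.1 ∧ 2 ^ t ∣ v.2 ∧
      (∀ y, Box v (2 ^ t) y → chk (col Γ p s₁ s₂ v) v y = col Γ p s₁ s₂ y) ∧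
      ∃ k, t + 1 ≤ k ∧ k ≤ t + 2 ∧ (Line p s₁ k v.1 ∨ Line p s₂ k v.2) := by
  obtain ⟨x, y⟩ := z
  obtain ⟨x', y'⟩ := z'
  have hT : (0 : ℤ) < 2 ^ t := by positivity
  have hh : ∀ a b, a - x ≤ 2 * 2 ^ t → x - a ≤ 2 * 2 ^ t → b - y ≤ 2 * 2 ^ t → y - b ≤ 2 * 2 ^ t →
      2 * t + 2 ≤ ht Γ (a, b) := fun a b a1 a2 a3 a4 =>
    ht_near hΓ (i := t + 1) (by omega) hz.ge (by rw [pow_succ]; unfold Near; simp only; omega)
  simp only [Near] at hn
  obtain ⟨n1, n2, n3, n4⟩ := hn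
  have w1 : col Γ p s₁ s₂ (x, y) ≠ col Γ p s₁ s₂ (x', y) := fun h => hl <| by
    rw [hor hΓ (t := t) (by omega) (by omega)
      (fun a a1 a2 => hh a y (by omega) (by omega) (by omega) (by omega)) h]
    exact ver hΓ (t := t) (by omega) (by omega)
      (fun a a1 a2 => hh x' a (by omega) (by omega) (by omega) (by omega)) (by rw [← h, hc])
  have w2 : col Γ p s₁ s₂ (x, y) ≠ col Γ p s₁ s₂ (x, y') := fun h => hl <| by
    rw [ver hΓ (t := t) (by omega) (by omega)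
      (fun a a1 a2 => hh x a (by omega) (by omega) (by omega) (by omega)) h]
    exact hor hΓ (t := t) (by omega) (by omega)
      (fun a a1 a2 => hh a y' (by omega) (by omega) (by omega) (by omega)) (by rw [← h, hc])
  have ct : ∀ a b a' b', a - x ≤ 2 * 2 ^ t → x - a ≤ 2 * 2 ^ t → b - y ≤ 2 * 2 ^ t →
      y - b ≤ 2 * 2 ^ t → a / 2 ^ t = a' / 2 ^ t → b / 2 ^ t = b' / 2 ^ t →
      col Γ p s₁ s₂ (a, b) = col Γ p s₁ s₂ (a', b') := fun a b a' b' a1 a2 a3 a4 e1 e2 =>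
    (const_tile hΓ (hh a b a1 a2 a3 a4) (by simp only [tile, e1, e2])).1
  obtain ⟨a, ha, ca⟩ := exists_cut hT (x := x) (x' := x') fun e =>
    w1 (ct _ _ _ _ (by omega) (by omega) (by omega) (by omega) e rfl)
  obtain ⟨b, hb, cb⟩ := exists_cut hT (x := y) (x' := y') fun e =>
    w2 (ct _ _ _ _ (by omega) (by omega) (by omega) (by omega) rfl e)
  have cq : ∀ u w, a - 2 ^ t ≤ u → u < a + 2 ^ t → b - 2 ^ t ≤ w → w < b + 2 ^ t →
      col Γ p s₁ s₂ (u, w) =
        col Γ p s₁ s₂ (if a ≤ u then a else a - 1, if b ≤ w then b else b - 1) :=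
    fun u w a1 a2 a3 a4 => ct _ _ _ _ (by omega) (by omega) (by omega) (by omega)
      (ediv_side hT ha a1 a2) (ediv_side hT hb a3 a4)
  have q1 := cq x y (by omega) (by omega) (by omega) (by omega)
  have q2 := cq x' y (by omega) (by omega) (by omega) (by omega)
  have q3 := cq x y' (by omega) (by omega) (by omega) (by omega)
  have q4 := cq x' y' (by omega) (by omega) (by omega) (by omega)
  refine ⟨(a, b), by unfold Box; simp only; omega, ha, hb, fun u hu => ?_, ?_⟩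
  · obtain ⟨u, w⟩ := u
    simp only [Box] at hu
    rw [cq u w (by omega) (by omega) (by omega) (by omega)]
    rw [q1, q2] at w1
    rw [q1, q3] at w2
    rw [q1, q4] at hc
    have key : col Γ p s₁ s₂ (a - 1, b) = !col Γ p s₁ s₂ (a, b) ∧
        col Γ p s₁ s₂ (a, b - 1) = !col Γ p s₁ s₂ (a, b) ∧
        col Γ p s₁ s₂ (a - 1, b - 1) = col Γ p s₁ s₂ (a, b) := by
      rcases ca with ca | ca <;> rcases cb with cb | cb <;>
        simp only [ca.2, cb.2, not_le.2 ca.1, not_le.2 cb.1, if_true, if_false] at w1 w2 hc <;>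
        revert w1 w2 hc <;> cases col Γ p s₁ s₂ (a - 1, b) <;> cases col Γ p s₁ s₂ (a, b) <;>
        cases col Γ p s₁ s₂ (a, b - 1) <;> cases col Γ p s₁ s₂ (a - 1, b - 1) <;> simp
    unfold chk
    by_cases a1 : a ≤ u <;> by_cases a2 : b ≤ w <;> simp [a1, a2, key]
  · by_contra hcon
    have nl : ∀ k, t + 1 ≤ k → k ≤ t + 2 → gr p s₁ k x = gr p s₁ k x' ∧ gr p s₂ k y = gr p s₂ k y' := by
      intro k k1 k2
      have l1 : ¬ Line p s₁ k a := fun h => hcon ⟨k, k1, k2, Or.inl h⟩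
      have l2 : ¬ Line p s₂ k b := fun h => hcon ⟨k, k1, k2, Or.inr h⟩
      have g1 : ∀ u, a - 2 ^ t ≤ u → u < a + 2 ^ t → gr p s₁ k u = gr p s₁ k a := fun u a1 a2 => by
        rw [gr_tile (by omega : t ≤ k) (ediv_side hT ha a1 a2)]
        split_ifs
        · rfl
        · exact gr_noline l1
      have g2 : ∀ u, b - 2 ^ t ≤ u → u < b + 2 ^ t → gr p s₂ k u = gr p s₂ k b := fun u a1 a2 => by
        rw [gr_tile (by omega : t ≤ k) (ediv_side hT hb a1 a2)]
        split_ifs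
        · rfl
        · exact gr_noline l2
      rw [g1 x (by omega) (by omega), g1 x' (by omega) (by omega), g2 y (by omega) (by omega),
        g2 y' (by omega) (by omega)]
      exact ⟨rfl, rfl⟩
    have m1 := nl (t + 1) le_rfl (by omega)
    have m2 := nl (t + 2) (by omega) le_rfl
    have hne : lay Γ (x', y') ≠ t + 1 := fun e => hl (by unfold lab; rw [e, hz, m1.1, m1.2])
    have lip : ht Γ (x', y') ≤ ht Γ (x, y) + 1 := ht_lip hΓ le_rfl (by
      have : (2 : ℤ) ^ t ≤ 2 ^ (ht Γ (x, y) / 2 + 1) :=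
        pow_le_pow_right₀ (by norm_num) (by unfold lay at hz; omega)
      unfold Near; simp only; omega)
    have e1 : ht Γ (x, y) / 2 = t + 2 := by unfold lay at *; omega
    have e2 : ht Γ (x', y') / 2 = t + 2 := by unfold lay at *; omega
    have e3 : lay Γ (x', y') = t + 2 := by unfold lay at *; omega
    unfold col gs at hc
    rw [decide_eq_decide, e1, e2, e3, hz, show t + 2 - 1 = t + 1 by omega] at hc
    simp only [m1.1, m1.2, m2.1, m2.2] at hc
    omega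

end Crest.Agent.N336.Area
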