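import Mathlib

/-!
# Row 336, area law geometry: abstract context and the vertex lemma (helper51)

`Ctx` packages a set function `φ` (later `φ X = I(X : Aᶜ)`) with the *step property* coming from
thin-buffer decoupling.  `Res` says that a four-valent vertex of a two-colouring can be resolved.
-/

set_option autoImplicit false

namespace Crest.Agent.N336.Area

/-- Half-open box of radius `ρ` around the lattice vertex `c`. -/
def Box (c : ℤ × ℤ) (ρ : ℤ) (z : ℤ × ℤ) : Prop :=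
  c.1 - ρ ≤ z.1 ∧ z.1 < c.1 + ρ ∧ c.2 - ρ ≤ z.2 ∧ z.2 < c.2 + ρ

/-- Sup-distance at most `d`. -/
def Near (d : ℤ) (z w : ℤ × ℤ) : Prop :=
  z.1 - w.1 ≤ d ∧ w.1 - z.1 ≤ d ∧ z.2 - w.2 ≤ d ∧ w.2 - z.2 ≤ d

instance (c : ℤ × ℤ) (ρ : ℤ) (z : ℤ × ℤ) : Decidable (Box c ρ z) := by
  unfold Box; infer_instance

instance (d : ℤ) (z w : ℤ × ℤ) : Decidable (Near d z w) := by
  unfold Near; infer_instance

/-- Checkerboard colouring around the vertex `c`. -/
def chk (σ : Bool) (c z : ℤ × ℤ) : Bool :=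
  xor σ (xor (decide (c.1 ≤ z.1)) (decide (c.2 ≤ z.2)))

/-- Abstract context: a set function with the step property. -/
structure Ctx (Λ : Type) [DecidableEq Λ] (g : ℕ) (C : ℝ) where
  pos : Λ → ℤ × ℤ
  inj : Function.Injective pos
  A : Finset Λ
  Γ : Finset (ℤ × ℤ)
  φ : Finset Λ → ℝ
  step : ∀ (X X' : Finset Λ) (c : ℤ × ℤ) (w b : ℕ), X ⊆ A → X' ⊆ A → b ≤ w →
    (2 * w - b + 8) - (2 * w - b + 8) / g ≤ b →
    (∀ x ∈ X', Box c (2 ^ w) (pos x)) →
    (∀ x ∈ X', ∀ y ∈ X, ¬ Near (2 * 2 ^ b) (pos x) (pos y)) →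
    (∀ x ∈ X', ∀ γ ∈ Γ, ¬ Near (2 * 2 ^ b) (pos x) γ) →
    φ (X ∪ X') ≤ φ X + C / 2 ^ w

variable {Λ : Type} [DecidableEq Λ] {g : ℕ} {C : ℝ}

/-- Total cost of a two-colour state. -/
def Ctx.Φ (K : Ctx Λ g C) (F : Bool → Finset Λ) : ℝ := K.φ (F true) + K.φ (F false)

/-- The vertex `c` can be resolved at radius `ρ` on the region `U` at the given cost. -/
def Res (K : Ctx Λ g C) (lam : ℝ) (U : Finset Λ) (c : ℤ × ℤ) (ρ : ℤ) (cost : ℝ) : Prop :=
  U ⊆ K.A ∧ (∀ x ∈ K.A, Box c ρ (K.pos x) → x ∈ U) ∧ (∀ x ∈ U, Box c (2 * ρ) (K.pos x)) ∧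
  ∀ (σ : Bool) (F : Bool → Finset Λ), (∀ b, F b ⊆ K.A) → (∀ b, Disjoint (F b) U) →
    (∀ b, ∀ x ∈ F b, Box c (4 * ρ) (K.pos x) → chk σ c (K.pos x) = b) →
    ∃ (F' : Bool → Finset Λ) (D : Finset Λ), (∀ b, F b ⊆ F' b) ∧ (∀ b, F' b ⊆ F b ∪ U) ∧
      U ⊆ F' true ∪ F' false ∪ D ∧ K.Φ F' + lam * D.card ≤ K.Φ F + cost

/-- Several separated vertices are resolved one after the other. -/
theorem multi (K : Ctx Λ g C) {lam : ℝ} (hl : 0 ≤ lam) {ι : Type} [DecidableEq ι]
    (I : Finset ι) (U : ι → Finset Λ) (c : ι → ℤ × ℤ) (ρ : ι → ℤ) (cost : ι → ℝ) (σ : ι → Bool)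
    (hρ : ∀ i ∈ I, 0 ≤ ρ i)
    (hR : ∀ i ∈ I, Res K lam (U i) (c i) (ρ i) (cost i))
    (hsep : ∀ i ∈ I, ∀ j ∈ I, i ≠ j → ∀ z, Box (c i) (2 * ρ i) z → ¬ Box (c j) (4 * ρ j) z)
    (F : Bool → Finset Λ) (hA : ∀ b, F b ⊆ K.A) (hD : ∀ i ∈ I, ∀ b, Disjoint (F b) (U i))
    (hc : ∀ i ∈ I, ∀ b, ∀ x ∈ F b, Box (c i) (4 * ρ i) (K.pos x) →
      chk (σ i) (c i) (K.pos x) = b) :
    ∃ (F' : Bool → Finset Λ) (D : Finset Λ), (∀ b, F b ⊆ F' b) ∧
      (∀ b, F' b ⊆ F b ∪ I.biUnion U) ∧ I.biUnion U ⊆ F' true ∪ F' false ∪ D ∧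
      K.Φ F' + lam * D.card ≤ K.Φ F + ∑ i ∈ I, cost i := by
  induction I using Finset.induction_on with
  | empty => exact ⟨F, ∅, fun _ => le_rfl, fun _ => by simp, by simp, by simp⟩
  | insert i I hi ih =>
    have hs : ∀ j ∈ I, j ∈ insert i I := fun j hj => Finset.mem_insert_of_mem hj
    have hi' : i ∈ insert i I := Finset.mem_insert_self _ _
    obtain ⟨F1, D1, h1, h2, h3, h4⟩ := ih (fun j hj => hρ j (hs j hj))
      (fun j hj => hR j (hs j hj)) (fun j hj k hk => hsep j (hs j hj) k (hs k hk))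
      (fun j hj => hD j (hs j hj)) (fun j hj => hc j (hs j hj))
    obtain ⟨hU, -, hU2, hres⟩ := hR i hi'
    have far : ∀ x ∈ I.biUnion U, ¬ Box (c i) (4 * ρ i) (K.pos x) := by
      intro x hx
      obtain ⟨j, hj, hxj⟩ := Finset.mem_biUnion.1 hx
      exact hsep j (hs j hj) i hi' (fun h => hi (h ▸ hj)) _ ((hR j (hs j hj)).2.2.1 x hxj)
    obtain ⟨F2, D2, k1, k2, k3, k4⟩ := hres (σ i) F1
      (fun b x hx => by
        rcases Finset.mem_union.1 (h2 b hx) with h | h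
        · exact hA b h
        · obtain ⟨j, hj, hxj⟩ := Finset.mem_biUnion.1 h
          exact (hR j (hs j hj)).1 hxj)
      (fun b => Finset.disjoint_left.2 fun x hx hxU => by
        rcases Finset.mem_union.1 (h2 b hx) with h | h
        · exact Finset.disjoint_left.1 (hD i hi' b) h hxU
        · apply far x h
          have := hU2 x hxU
          have := hρ i hi'
          unfold Box at *; omega)
      (fun b x hx hb => by
        rcases Finset.mem_union.1 (h2 b hx) with h | h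
        · exact hc i hi' b x h hb
        · exact absurd hb (far x h))
    refine ⟨F2, D1 ∪ D2, fun b => (h1 b).trans (k1 b), fun b x hx => ?_, fun x hx => ?_, ?_⟩
    · rw [Finset.biUnion_insert]
      rcases Finset.mem_union.1 (k2 b hx) with h | h
      · rcases Finset.mem_union.1 (h2 b h) with h | h
        · exact Finset.mem_union_left _ h
        · exact Finset.mem_union_right _ (Finset.mem_union_right _ h)
      · exact Finset.mem_union_right _ (Finset.mem_union_left _ h)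
    · rw [Finset.biUnion_insert] at hx
      rcases Finset.mem_union.1 hx with h | h
      · have := k3 h
        simp only [Finset.mem_union] at this ⊢
        tauto
      · have := h3 h
        have a1 := @k1 true x
        have a2 := @k1 false x
        simp only [Finset.mem_union] at this ⊢
        tauto
    · rw [Finset.sum_insert hi]
      have : ((D1 ∪ D2).card : ℝ) ≤ D1.card + D2.card := by
        exact_mod_cast Finset.card_union_le D1 D2
      nlinarith [mul_le_mul_of_nonneg_left this hl]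

/-- Sites in a box. -/
theorem card_box (K : Ctx Λ g C) (c : ℤ × ℤ) (n : ℕ) (T : Finset Λ)
    (hT : ∀ x ∈ T, Box c n (K.pos x)) : T.card ≤ (2 * n) ^ 2 := by
  have : T.card ≤ (Finset.Ico (c.1 - n) (c.1 + n) ×ˢ Finset.Ico (c.2 - n) (c.2 + n)).card := by
    refine Finset.card_le_card_of_injOn K.pos (fun x hx => ?_) (K.inj.injOn)
    have := hT x hx
    simp only [Finset.coe_product, Finset.coe_Ico, Set.mem_prod, Set.mem_Ico]
    unfold Box at this; omega
  rw [Finset.card_product, Int.card_Ico, Int.card_Ico] at this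
  have e1 : (c.1 + n - (c.1 - n)).toNat = 2 * n := by omega
  have e2 : (c.2 + n - (c.2 - n)).toNat = 2 * n := by omega
  rw [e1, e2] at this
  nlinarith

/-- Trivial resolution: put the whole box into the discarded set. -/
theorem res_base (K : Ctx Λ g C) {lam : ℝ} (hl : 0 ≤ lam) (c : ℤ × ℤ) (n : ℕ) :
    Res K lam (K.A.filter fun x => Box c n (K.pos x)) c n (lam * (2 * n) ^ 2) := by
  refine ⟨Finset.filter_subset _ _, fun x hx hb => Finset.mem_filter.2 ⟨hx, hb⟩,
    fun x hx => ?_, fun σ F _ _ _ => ⟨F, K.A.filter fun x => Box c n (K.pos x), fun _ => le_rfl,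
      fun _ => Finset.subset_union_left, Finset.subset_union_right, ?_⟩⟩
  · have := (Finset.mem_filter.1 hx).2
    unfold Box at *; omega
  · have := card_box K c n _ (fun x hx => (Finset.mem_filter.1 hx).2 :
      ∀ x ∈ K.A.filter fun x => Box c n (K.pos x), Box c n (K.pos x))
    have h2 : (((K.A.filter fun x => Box c n (K.pos x)).card : ℕ) : ℝ) ≤ (2 * n) ^ 2 := by
      exact_mod_cast this
    nlinarith [mul_le_mul_of_nonneg_left h2 hl]

/-- The four children of a vertex. -/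
def kid (c : ℤ × ℤ) (ρ : ℤ) (i : Bool × Bool) : ℤ × ℤ :=
  if i.1 then (if i.2 then (c.1 + ρ, c.2) else (c.1 - ρ, c.2))
  else (if i.2 then (c.1, c.2 + ρ) else (c.1, c.2 - ρ))

theorem kid_near (σ b : Bool) (c x y : ℤ × ℤ) (ρ r : ℤ) (hr : 8 * r ≤ ρ) (h0 : 0 < r)
    (hx : Box c ρ x) (hy : ¬ Box c ρ y) (hxy : Near r x y) (h1 : chk σ c x = !b)
    (h2 : chk σ c y = b) : ∃ i, Box (kid c ρ i) r x := by
  have hne : chk σ c x ≠ chk σ c y := by rw [h1, h2]; cases b <;> simp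
  have key : ¬ ((c.1 ≤ x.1 ↔ c.1 ≤ y.1) ∧ (c.2 ≤ x.2 ↔ c.2 ≤ y.2)) := by
    rintro ⟨a1, a2⟩
    apply hne
    unfold chk
    simp only [a1, a2]
  unfold Box Near at *
  by_cases a1 : c.1 + ρ ≤ y.1
  · exact ⟨(true, true), by simp only [kid, if_true]; omega⟩
  by_cases a2 : y.1 < c.1 - ρ
  · exact ⟨(true, false), by simp only [kid, if_true, Bool.false_eq_true, if_false]; omega⟩
  by_cases a3 : c.2 + ρ ≤ y.2
  · exact ⟨(false, true), by simp only [kid, if_true, Bool.false_eq_true, if_false]; omega⟩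
  · exact ⟨(false, false), by simp only [kid, Bool.false_eq_true, if_false]; omega⟩

theorem kid_chk_out (σ : Bool) (c x : ℤ × ℤ) (ρ r : ℤ) (hr : 8 * r ≤ ρ) (h0 : 0 < r)
    (i : Bool × Bool) (hx : Box (kid c ρ i) (4 * r) x) (hy : ¬ Box c ρ x) :
    chk σ (kid c ρ i) x = chk σ c x := by
  obtain ⟨i, j⟩ := i
  unfold Box at *
  cases i <;> cases j <;>
    simp only [kid, if_true, Bool.false_eq_true, if_false] at hx ⊢ <;> unfold chk <;>
    simp only <;> congr 2 <;> simp only [decide_eq_decide] <;> omega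

theorem kid_chk_in (σ : Bool) (c x : ℤ × ℤ) (ρ r : ℤ) (hr : 8 * r ≤ ρ) (h0 : 0 < r)
    (i : Bool × Bool) (hx : Box (kid c ρ i) (4 * r) x) (hy : Box c ρ x) :
    chk σ (kid c ρ i) x = !chk σ c x := by
  obtain ⟨i, j⟩ := i
  unfold Box at *
  cases i <;> cases j <;>
    simp only [kid, if_true, Bool.false_eq_true, if_false] at hx ⊢ <;> unfold chk <;>
    simp only
  · have a1 : c.2 - ρ ≤ x.2 := by omega
    have a2 : ¬ c.2 ≤ x.2 := by omega
    simp [a1, a2]
  · have a1 : ¬ c.2 + ρ ≤ x.2 := by omega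
    have a2 : c.2 ≤ x.2 := by omega
    simp [a1, a2]
  · have a1 : c.1 - ρ ≤ x.1 := by omega
    have a2 : ¬ c.1 ≤ x.1 := by omega
    simp [a1, a2]
  · have a1 : ¬ c.1 + ρ ≤ x.1 := by omega
    have a2 : c.1 ≤ x.1 := by omega
    simp [a1, a2]

theorem kid_box (c z : ℤ × ℤ) (ρ r : ℤ) (i : Bool × Bool) (hx : Box (kid c ρ i) r z)
    (h0 : 0 ≤ ρ) : Box c (ρ + r) z := by
  obtain ⟨i, j⟩ := i
  unfold Box at *
  cases i <;> cases j <;> simp only [kid, if_true, Bool.false_eq_true, if_false] at hx <;> omega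

theorem kid_sep (c z : ℤ × ℤ) (ρ r : ℤ) (hr : 8 * r ≤ ρ) (i j : Bool × Bool) (hij : i ≠ j)
    (hx : Box (kid c ρ i) (2 * r) z) : ¬ Box (kid c ρ j) (4 * r) z := by
  obtain ⟨i, i'⟩ := i
  obtain ⟨j, j'⟩ := j
  unfold Box at *
  cases i <;> cases j <;> cases i' <;> cases j' <;>
    simp only [kid, if_true, Bool.false_eq_true, if_false] at hx ⊢ <;>
    first | omega | exact absurd rfl hij

/-- One step of the vertex recursion. -/
theorem res_step (K : Ctx Λ g C) (hC : 0 ≤ C) {lam : ℝ} (hl : 0 ≤ lam) (c : ℤ × ℤ) (e e' : ℕ)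
    (he : e' + 4 ≤ e) (hg : (2 * e - e' + 8) - (2 * e - e' + 8) / g ≤ e') (V : ℝ)
    (hΓ : ∀ γ ∈ K.Γ, ¬ Box c (4 * 2 ^ e) γ)
    (ih : ∀ c' : ℤ × ℤ, (∀ γ ∈ K.Γ, ¬ Box c' (4 * 2 ^ (e' + 1)) γ) →
      ∃ U, Res K lam U c' (2 ^ (e' + 1)) V) :
    ∃ U, Res K lam U c (2 ^ e) (2 * C + 4 * V) := by
  classical
  have hp : (8 : ℤ) * 2 ^ (e' + 1) ≤ 2 ^ e := by
    calc (8 : ℤ) * 2 ^ (e' + 1) = 2 ^ (e' + 4) := by ring
      _ ≤ 2 ^ e := pow_le_pow_right₀ (by norm_num) he
  have h0 : (0 : ℤ) < 2 ^ (e' + 1) := by positivity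
  have h2 : (2 : ℤ) ^ (e' + 1) = 2 * 2 ^ e' := by ring
  generalize hρ : (2 : ℤ) ^ e = ρ at *
  generalize hr : (2 : ℤ) ^ (e' + 1) = r at *
  have hk : ∀ i, ∃ U, Res K lam U (kid c ρ i) r V := fun i => ih _ fun γ hγ hb => by
    have := kid_box c γ ρ _ i hb (by omega)
    apply hΓ γ hγ
    unfold Box at *; omega
  choose U hU using hk
  set B := K.A.filter fun x => Box c ρ (K.pos x) with hB
  set W := (Finset.univ : Finset (Bool × Bool)).biUnion U with hW
  refine ⟨B ∪ W, ?_, fun x hx hb => Finset.mem_union_left _ (Finset.mem_filter.2 ⟨hx, hb⟩),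
    fun x hx => ?_, fun σ F hA hD hc => ?_⟩
  · refine Finset.union_subset (Finset.filter_subset _ _) fun x hx => ?_
    obtain ⟨i, -, hi⟩ := Finset.mem_biUnion.1 hx
    exact (hU i).1 hi
  · rcases Finset.mem_union.1 hx with h | h
    · have := (Finset.mem_filter.1 h).2
      unfold Box at *; omega
    · obtain ⟨i, -, hi⟩ := Finset.mem_biUnion.1 h
      have := kid_box c _ ρ _ i ((hU i).2.2.1 x hi) (by omega)
      unfold Box at *; omega
  -- the two inner patches
  set P : Bool → Finset Λ := fun b => (B \ W).filter fun x => chk σ c (K.pos x) = !b with hP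
  have hPB : ∀ b, ∀ x ∈ P b, x ∈ K.A ∧ Box c ρ (K.pos x) ∧ x ∉ W ∧ chk σ c (K.pos x) = !b := by
    intro b x hx
    obtain ⟨a1, a2⟩ := Finset.mem_filter.1 hx
    obtain ⟨a3, a4⟩ := Finset.mem_sdiff.1 a1
    exact ⟨(Finset.mem_filter.1 a3).1, (Finset.mem_filter.1 a3).2, a4, a2⟩
  have hFB : ∀ b, ∀ y ∈ F b, ¬ Box c ρ (K.pos y) := fun b y hy hb =>
    Finset.disjoint_left.1 (hD b) hy
      (Finset.mem_union_left _ (Finset.mem_filter.2 ⟨hA b hy, hb⟩))
  have hstep : ∀ b, K.φ (F b ∪ P b) ≤ K.φ (F b) + C := by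
    intro b
    have := K.step (F b) (P b) c e e' (hA b) (fun x hx => (hPB b x hx).1) (by omega) hg
      (fun x hx => by rw [hρ]; exact (hPB b x hx).2.1)
      (fun x hx y hy hn => by
        rw [← h2] at hn
        obtain ⟨a1, a2, a3, a4⟩ := hPB b x hx
        have hy4 : Box c (4 * ρ) (K.pos y) := by unfold Box Near at *; omega
        obtain ⟨i, hi⟩ := kid_near σ b c _ _ ρ r hp h0 a2 (hFB b y hy) hn a4 (hc b y hy hy4)
        exact a3 (Finset.mem_biUnion.2 ⟨i, Finset.mem_univ _, (hU i).2.1 x a1 hi⟩))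
      (fun x hx γ hγ hn => by
        rw [← h2] at hn
        have a2 := (hPB b x hx).2.1
        apply hΓ γ hγ
        unfold Box Near at *; omega)
    have h3 : C / 2 ^ e ≤ C := div_le_self hC (one_le_pow₀ (by norm_num))
    linarith
  obtain ⟨F', D, k1, k2, k3, k4⟩ := multi K hl Finset.univ U (kid c ρ) (fun _ => r) (fun _ => V)
    (fun _ => σ) (fun _ _ => h0.le) (fun i _ => hU i)
    (fun i _ j _ hij z hz => kid_sep c z ρ r hp i j hij hz) (fun b => F b ∪ P b)
    (fun b => Finset.union_subset (hA b) fun x hx => (hPB b x hx).1)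
    (fun i _ b => Finset.disjoint_left.2 fun x hx hxU => by
      have hxW : x ∈ W := Finset.mem_biUnion.2 ⟨i, Finset.mem_univ _, hxU⟩
      rcases Finset.mem_union.1 hx with h | h
      · exact Finset.disjoint_left.1 (hD b) h (Finset.mem_union_right _ hxW)
      · exact (hPB b x h).2.2.1 hxW)
    (fun i _ b x hx hb => by
      rcases Finset.mem_union.1 hx with h | h
      · rw [kid_chk_out σ c _ ρ r hp h0 i hb (hFB b x h)]
        apply hc b x h
        have := kid_box c _ ρ _ i hb (by omega)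
        unfold Box at *; omega
      · obtain ⟨-, a2, -, a4⟩ := hPB b x h
        rw [kid_chk_in σ c _ ρ r hp h0 i hb a2, a4, Bool.not_not])
  refine ⟨F', D, fun b => Finset.subset_union_left.trans (k1 b), fun b x hx => ?_,
    fun x hx => ?_, ?_⟩
  · rcases Finset.mem_union.1 (k2 b hx) with h | h
    · rcases Finset.mem_union.1 h with h | h
      · exact Finset.mem_union_left _ h
      · obtain ⟨a1, a2, -, -⟩ := hPB b x h
        exact Finset.mem_union_right _ (Finset.mem_union_left _ (Finset.mem_filter.2 ⟨a1, a2⟩))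
    · exact Finset.mem_union_right _ (Finset.mem_union_right _ h)
  · by_cases hxW : x ∈ W
    · exact k3 hxW
    · have hxB : x ∈ B := (Finset.mem_union.1 hx).resolve_right hxW
      have : x ∈ P (!chk σ c (K.pos x)) :=
        Finset.mem_filter.2 ⟨Finset.mem_sdiff.2 ⟨hxB, hxW⟩, by simp⟩
      have h' := k1 _ (Finset.mem_union_right _ this)
      cases hb : chk σ c (K.pos x) <;> rw [hb] at h' <;> simp only [Finset.mem_union] <;>
        simp only [Bool.not_false, Bool.not_true] at h' <;> tauto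
  · have a1 := hstep true
    have a2 := hstep false
    simp only [Finset.sum_const, Finset.card_univ, Fintype.card_prod, Fintype.card_bool,
      nsmul_eq_mul] at k4
    unfold Ctx.Φ at *
    push_cast at k4
    linarith

/-- The vertex lemma: cost `B 2^(e/h)` at radius `2^e`. -/
theorem res_exists (g h : ℕ) (hg : 1 ≤ g) (hh : 2 ≤ h) {C lam : ℝ} (hC : 0 ≤ C) (hl : 0 ≤ lam) :
    ∃ B : ℝ, 0 ≤ B ∧ ∀ (Λ : Type) [DecidableEq Λ] (K : Ctx Λ g C) (e : ℕ) (c : ℤ × ℤ),
      (∀ γ ∈ K.Γ, ¬ Box c (4 * 2 ^ e) γ) → ∃ U, Res K lam U c (2 ^ e) (B * 2 ^ (e / h)) := by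
  set e₀ := g * (6 * h + 12) with he₀
  refine ⟨C + lam * (2 * 2 ^ e₀) ^ 2, by positivity, fun Λ _ K e => ?_⟩
  set B := C + lam * (2 * 2 ^ e₀) ^ 2 with hB
  have hB0 : 0 ≤ lam * (2 * (2 : ℝ) ^ e₀) ^ 2 := by positivity
  have mono : ∀ {U c ρ a b}, a ≤ b → Res K lam U c ρ a → Res K lam U c ρ b := by
    intro U c ρ a b hab h
    refine ⟨h.1, h.2.1, h.2.2.1, fun σ F h1 h2 h3 => ?_⟩
    obtain ⟨F', D, k1, k2, k3, k4⟩ := h.2.2.2 σ F h1 h2 h3
    exact ⟨F', D, k1, k2, k3, by linarith⟩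
  induction e using Nat.strong_induction_on with
  | _ e ih =>
    intro c hΓ
    by_cases hle : e ≤ e₀
    · have := res_base K hl c (2 ^ e)
      push_cast at this
      refine ⟨_, mono ?_ this⟩
      have a1 : (2 : ℝ) ^ e ≤ 2 ^ e₀ := pow_le_pow_right₀ (by norm_num) hle
      have a2 : (1 : ℝ) ≤ 2 ^ (e / h) := one_le_pow₀ (by norm_num)
      have a3 : lam * (2 * (2 : ℝ) ^ e) ^ 2 ≤ lam * (2 * 2 ^ e₀) ^ 2 := by gcongr
      nlinarith
    · have hge : 6 * h + 12 ≤ e₀ := Nat.le_mul_of_pos_left _ hg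
      obtain ⟨U, hU⟩ := res_step K hC hl c e (e - 3 * h - 1) (by omega) (by
          have : 6 * h + 12 ≤ (2 * e - (e - 3 * h - 1) + 8) / g := by
            rw [Nat.le_div_iff_mul_le hg]
            nlinarith [show e₀ ≤ 2 * e - (e - 3 * h - 1) + 8 by omega]
          omega) (B * 2 ^ ((e - 3 * h - 1 + 1) / h)) hΓ
        (fun c' hc' => ih _ (by omega) c' hc')
      refine ⟨U, mono ?_ hU⟩
      have a1 : e / h = (e - 3 * h - 1 + 1) / h + 3 := by
        rw [← Nat.add_mul_div_right _ _ (by omega : 0 < h)]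
        congr 1; omega
      rw [a1, pow_add]
      have a2 : (1 : ℝ) ≤ 2 ^ ((e - 3 * h - 1 + 1) / h) := one_le_pow₀ (by norm_num)
      have a3 : C ≤ B := by linarith
      nlinarith

end Crest.Agent.N336.Area
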