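import Crest.Agent.N336.Defs
import Crest.Agent.N336.Area.Vert

/-!
# Row 336, area law: the step property from thin-buffer decoupling (helper51)
-/

set_option autoImplicit false

namespace Crest.Agent.N336.Area

open Crest.MathPhysics.LatticeSpin

section ent

variable {q : ℕ} {Λ : Type} [Fintype Λ] [DecidableEq Λ] {Ω : Vec Λ q}

theorem MI_comm (A B : Finset Λ) : MI Ω A B = MI Ω B A := by
  unfold MI; rw [Finset.union_comm]; ring

theorem MI_mono_right (hs : ∀ A B : Finset Λ, S Ω (A ∪ B) + S Ω (A ∩ B) ≤ S Ω A + S Ω B)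
    {A B B' : Finset Λ} (hB : B ⊆ B') (hd : Disjoint A B') : MI Ω A B ≤ MI Ω A B' := by
  have := hs (A ∪ B) B'
  have e1 : A ∪ B ∪ B' = A ∪ B' := by
    rw [Finset.union_assoc, Finset.union_eq_right.2 hB]
  have e2 : (A ∪ B) ∩ B' = B := by
    rw [Finset.union_inter_distrib_right, Finset.disjoint_iff_inter_eq_empty.1 hd,
      Finset.inter_eq_left.2 hB, Finset.empty_union]
  rw [e1, e2] at this
  unfold MI; linarith

theorem MI_mono (hs : ∀ A B : Finset Λ, S Ω (A ∪ B) + S Ω (A ∩ B) ≤ S Ω A + S Ω B)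
    {A A' B B' : Finset Λ} (hA : A ⊆ A') (hB : B ⊆ B') (hd : Disjoint A' B') :
    MI Ω A B ≤ MI Ω A' B' := by
  calc MI Ω A B ≤ MI Ω A B' := MI_mono_right hs hB (hd.mono_left hA)
    _ = MI Ω B' A := MI_comm _ _
    _ ≤ MI Ω B' A' := MI_mono_right hs hA hd.symm
    _ = MI Ω A' B' := MI_comm _ _

theorem MI_chain (hs : ∀ A B : Finset Λ, S Ω (A ∪ B) + S Ω (A ∩ B) ≤ S Ω A + S Ω B)
    (h0 : ∀ A : Finset Λ, 0 ≤ S Ω A) (X X' E : Finset Λ) :
    MI Ω (X ∪ X') E ≤ MI Ω X E + MI Ω X' (E ∪ X) := by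
  have := hs X X'
  have := h0 (X ∩ X')
  have e1 : X ∪ X' ∪ E = X' ∪ (E ∪ X) := by
    ext x; simp only [Finset.mem_union]; tauto
  unfold MI
  rw [e1, Finset.union_comm E X]
  linarith

/-- The two-family inequality. -/
theorem two_family (hs : ∀ A B : Finset Λ, S Ω (A ∪ B) + S Ω (A ∩ B) ≤ S Ω A + S Ω B)
    (hc : ∀ A : Finset Λ, S Ω Aᶜ = S Ω A)
    (hb : ∀ A : Finset Λ, 0 ≤ S Ω A ∧ S Ω A ≤ A.card * Real.log q) 
    {A X Y D : Finset Λ} (hX : X ⊆ A) (hY : Y ⊆ A) (hA : A ⊆ X ∪ Y ∪ D) :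
    2 * S Ω A ≤ MI Ω X Aᶜ + MI Ω Y Aᶜ + 2 * Real.log q * D.card := by
  set Y' := Y \ X
  set D' := A \ (X ∪ Y)
  have m1 : MI Ω Y' Aᶜ ≤ MI Ω Y Aᶜ :=
    MI_mono hs Finset.sdiff_subset le_rfl (Finset.disjoint_left.2 fun x hx hx' =>
      Finset.mem_compl.1 hx' (hY hx))
  have e1 : X ∪ Aᶜ = (Y' ∪ D')ᶜ := by
    ext x
    have := @hX x
    have := @hY x
    simp only [Y', D', Finset.mem_union, Finset.mem_compl, Finset.mem_sdiff]; tauto
  have e2 : Y' ∪ Aᶜ = (X ∪ D')ᶜ := by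
    ext x
    have := @hX x
    have := @hY x
    simp only [Y', D', Finset.mem_union, Finset.mem_compl, Finset.mem_sdiff]; tauto
  have s1 := hs Y' D'
  have s2 := hs X D'
  have s3 := (hb (Y' ∩ D')).1
  have s4 := (hb (X ∩ D')).1
  have s5 := (hb D').2
  have s6 : (D'.card : ℝ) ≤ D.card := by
    have : D' ⊆ D := fun x hx => by
      have h1 := Finset.mem_sdiff.1 hx
      exact (Finset.mem_union.1 (hA h1.1)).resolve_left h1.2
    exact_mod_cast Finset.card_le_card this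
  have hl : 0 ≤ Real.log q := Real.log_natCast_nonneg q
  have s7 := mul_le_mul_of_nonneg_right s6 hl
  unfold MI at *
  rw [e1, hc, hc]
  rw [e2, hc, hc] at m1
  nlinarith

end ent

/-- Signed sup-distance to the tile `τ` of side `r`. -/
def sd (r : ℤ) (τ z : ℤ × ℤ) : ℤ :=
  max (max (r * τ.1 - z.1) (z.1 - (r * τ.1 + r - 1))) (max (r * τ.2 - z.2) (z.2 - (r * τ.2 + r - 1)))

/-- The dilated tile. -/
noncomputable def tileBox (r : ℤ) (τ : ℤ × ℤ) (k : ℤ) : Finset (ℤ × ℤ) :=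
  Finset.Icc (r * τ.1 - k) (r * τ.1 + r - 1 + k) ×ˢ Finset.Icc (r * τ.2 - k) (r * τ.2 + r - 1 + k)

theorem mem_tileBox (r : ℤ) (τ z : ℤ × ℤ) (k : ℤ) : z ∈ tileBox r τ k ↔ sd r τ z ≤ k := by
  unfold tileBox sd
  simp only [Finset.mem_product, Finset.mem_Icc, max_le_iff]
  omega

theorem card_tileBox (r : ℤ) (τ : ℤ × ℤ) (k : ℤ) (h : 0 ≤ r + 2 * k) :
    ((tileBox r τ k).card : ℤ) = (r + 2 * k) ^ 2 := by
  unfold tileBox
  rw [Finset.card_product, Int.card_Icc, Int.card_Icc]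
  have e1 : r * τ.1 + r - 1 + k + 1 - (r * τ.1 - k) = r + 2 * k := by ring
  have e2 : r * τ.2 + r - 1 + k + 1 - (r * τ.2 - k) = r + 2 * k := by ring
  rw [e1, e2]
  push_cast
  rw [Int.toNat_of_nonneg h]; ring

theorem card_ring (r : ℤ) (τ : ℤ × ℤ) (k : ℤ) (hr : 1 ≤ r) (h0 : 0 ≤ k) (hk : k ≤ r) :
    (((tileBox r τ k).filter fun z => sd r τ z = k).card : ℤ) ≤ 12 * r := by
  by_cases h : 0 ≤ r + 2 * (k - 1)
  · have hsub : tileBox r τ (k - 1) ⊆ tileBox r τ k := fun z hz => by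
      rw [mem_tileBox] at *; omega
    have e : (tileBox r τ k).filter (fun z => sd r τ z = k) = tileBox r τ k \ tileBox r τ (k - 1) := by
      ext z
      simp only [Finset.mem_filter, Finset.mem_sdiff, mem_tileBox]; omega
    rw [e, Finset.card_sdiff_of_subset hsub, Nat.cast_sub (Finset.card_le_card hsub),
      card_tileBox _ _ _ h, card_tileBox _ _ _ (by omega)]
    nlinarith
  · have := card_tileBox r τ k (by omega)
    have h2 : (((tileBox r τ k).filter fun z => sd r τ z = k).card : ℤ) ≤ (tileBox r τ k).card := by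
      exact_mod_cast Finset.card_filter_le _ _
    have e1 : r = 1 := by omega
    have e2 : k = 0 := by omega
    subst e1 e2
    omega

/-- Tile of side `r` containing `z`. -/
def tile (r : ℤ) (z : ℤ × ℤ) : ℤ × ℤ := (z.1 / r, z.2 / r)

theorem tile_spec {r : ℤ} (hr : 0 < r) (z : ℤ × ℤ) :
    r * (tile r z).1 ≤ z.1 ∧ z.1 < r * (tile r z).1 + r ∧
      r * (tile r z).2 ≤ z.2 ∧ z.2 < r * (tile r z).2 + r := by
  have a1 := Int.mul_ediv_add_emod z.1 r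
  have a2 := Int.mul_ediv_add_emod z.2 r
  have a3 := Int.emod_nonneg z.1 hr.ne'
  have a4 := Int.emod_nonneg z.2 hr.ne'
  have a5 := Int.emod_lt_of_pos z.1 hr
  have a6 := Int.emod_lt_of_pos z.2 hr
  simp only [tile]; omega

theorem card_tiles {ι : Type} (X : Finset ι) (p : ι → ℤ × ℤ) (c : ℤ × ℤ) (r : ℤ) (t : ℕ)
    (hr : 0 < r) (hX : ∀ x ∈ X, Box c (t * r) (p x)) :
    (X.image fun x => tile r (p x)).card ≤ (2 * t + 1) ^ 2 := by
  have : (X.image fun x => tile r (p x)) ⊆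
      Finset.Icc (c.1 / r - t) (c.1 / r + t) ×ˢ Finset.Icc (c.2 / r - t) (c.2 / r + t) := by
    intro τ hτ
    obtain ⟨x, hx, rfl⟩ := Finset.mem_image.1 hτ
    obtain ⟨b1, b2, b3, b4⟩ := hX x hx
    have k1 : ∀ a : ℤ, (a - t * r) / r = a / r - t := fun a => by
      rw [show a - t * r = a + (-t) * r by ring, Int.add_mul_ediv_right _ _ hr.ne']; ring
    have k2 : ∀ a : ℤ, (a + t * r) / r = a / r + t := fun a => by
      rw [Int.add_mul_ediv_right _ _ hr.ne']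
    simp only [Finset.mem_product, Finset.mem_Icc, tile]
    refine ⟨⟨?_, ?_⟩, ?_, ?_⟩
    · rw [← k1]; exact Int.ediv_le_ediv hr b1
    · rw [← k2]; exact Int.ediv_le_ediv hr b2.le
    · rw [← k1]; exact Int.ediv_le_ediv hr b3
    · rw [← k2]; exact Int.ediv_le_ediv hr b4.le
  refine (Finset.card_le_card this).trans (le_of_eq ?_)
  rw [Finset.card_product, Int.card_Icc, Int.card_Icc]
  have e1 : (c.1 / r + t + 1 - (c.1 / r - t)).toNat = 2 * t + 1 := by omega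
  have e2 : (c.2 / r + t + 1 - (c.2 / r - t)).toNat = 2 * t + 1 := by omega
  rw [e1, e2]; ring

variable {q R : ℕ} {J Δ : ℝ} {Λ : Type} [Fintype Λ] [DecidableEq Λ]

open Classical in
/-- Positions of the inner endpoints of the cut edges. -/
noncomputable def gam (s : Sys q R J Δ Λ) (A : Finset Λ) : Finset (ℤ × ℤ) :=
  ((A ×ˢ (Finset.univ \ A)).filter fun p => s.G.Adj p.1 p.2).image fun p => s.pos p.1

theorem card_gam (s : Sys q R J Δ Λ) (A : Finset Λ) : (gam s A).card ≤ s.bd A :=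
  Finset.card_image_le

theorem mem_gam (s : Sys q R J Δ Λ) (A : Finset Λ) {x y : Λ} (h : s.G.Adj x y) (hx : x ∈ A)
    (hy : y ∉ A) : s.pos x ∈ gam s A := by
  classical
  unfold gam
  exact Finset.mem_image.2 ⟨(x, y), Finset.mem_filter.2 ⟨by simp [hx, hy], h⟩, rfl⟩

/-- The chart of the tiles of side `2^b` meeting a patch. -/
theorem exists_chart (s : Sys q R J Δ Λ) (A X' : Finset Λ) (hne : X'.Nonempty) (c : ℤ × ℤ)
    (w b : ℕ) (hb : b ≤ w) (hw : ∀ x ∈ X', Box c (2 ^ w) (s.pos x))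
    (hΓ : ∀ x ∈ X', ∀ γ ∈ gam s A, ¬ Near (2 * 2 ^ b) (s.pos x) γ) :
    ∃ ch : Chart s (2 ^ (2 * w - b + 8)) (2 ^ b), ch.U = A ∧ (∀ x ∈ X', ch.ψ (s.pos x) ≤ 0) ∧
      ∀ z, ch.ψ z ≤ (2 ^ b : ℕ) → ∃ x ∈ X', Near (2 * 2 ^ b) (s.pos x) z := by
  classical
  obtain ⟨d, rfl⟩ := Nat.exists_eq_add_of_le hb
  have hn : 2 * (b + d) - b + 8 = b + 2 * d + 8 := by omega
  rw [hn]
  have hr : (0 : ℤ) < 2 ^ b := by positivity
  set T := X'.image fun x => tile (2 ^ b) (s.pos x) with hT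
  have hTn : T.Nonempty := hne.image _
  have hcard : T.card ≤ (2 * 2 ^ d + 1) ^ 2 := card_tiles X' s.pos c _ _ hr fun x hx => by
    have := hw x hx
    rwa [show (2 : ℤ) ^ (b + d) = ((2 ^ d : ℕ) : ℤ) * 2 ^ b by push_cast; ring] at this
  have hcard' : (T.card : ℤ) ≤ 9 * (2 ^ d) ^ 2 := by
    have h1 : (T.card : ℤ) ≤ (2 * 2 ^ d + 1) ^ 2 := by exact_mod_cast hcard
    have h2 : (1 : ℤ) ≤ 2 ^ d := one_le_pow₀ (by norm_num)
    nlinarith
  set ψ : ℤ × ℤ → ℤ := fun z => T.inf' hTn fun τ => sd (2 ^ b) τ z with hψ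
  have hatt : ∀ z, ∃ τ ∈ T, ψ z = sd (2 ^ b) τ z := fun z => Finset.exists_mem_eq_inf' hTn _
  have hle : ∀ z, ∀ τ ∈ T, ψ z ≤ sd (2 ^ b) τ z := fun z τ hτ => Finset.inf'_le _ hτ
  have hnear : ∀ z, ψ z ≤ (2 ^ b : ℕ) → ∃ x ∈ X', Near (2 * 2 ^ b) (s.pos x) z := by
    intro z hz
    obtain ⟨τ, hτ, e⟩ := hatt z
    obtain ⟨x, hx, rfl⟩ := Finset.mem_image.1 hτ
    refine ⟨x, hx, ?_⟩
    have := tile_spec hr (s.pos x)
    rw [e] at hz
    push_cast at hz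
    unfold sd at hz
    simp only [max_le_iff] at hz
    unfold Near; omega
  have hbi : ∀ (f : ℤ × ℤ → Finset (ℤ × ℤ)) (M : ℤ), (∀ τ, ((f τ).card : ℤ) ≤ M) →
      ((T.biUnion f).card : ℤ) ≤ 9 * (2 ^ d) ^ 2 * M := by
    intro f M hM
    have h1 : ((T.biUnion f).card : ℤ) ≤ ∑ τ ∈ T, ((f τ).card : ℤ) := by
      exact_mod_cast Finset.card_biUnion_le
    have h2 : ∑ τ ∈ T, ((f τ).card : ℤ) ≤ T.card • M := Finset.sum_le_card_nsmul _ _ _ fun τ _ => hM τ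
    have h3 : 0 ≤ M := le_trans (by positivity) (hM (0, 0))
    rw [nsmul_eq_mul] at h2
    nlinarith
  refine ⟨⟨A, ψ, fun z z' h1 h2 => ?_, fun k h0 hk T' hT' => ?_, fun T' hT' => ?_,
    fun x y hxy hx hy => ?_⟩, rfl, fun x hx => ?_, hnear⟩
  · obtain ⟨τ, hτ, e⟩ := hatt z'
    have := hle z τ hτ
    rw [e]
    rw [abs_le] at h1 h2
    unfold sd at *
    omega
  · push_cast at hk
    have h1 := hbi (fun τ => (tileBox (2 ^ b) τ k).filter fun z => sd (2 ^ b) τ z = k) _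
      fun τ => card_ring _ τ k hr h0 hk
    have h2 : T' ⊆ T.biUnion fun τ => (tileBox (2 ^ b) τ k).filter fun z => sd (2 ^ b) τ z = k := by
      intro z hz
      obtain ⟨τ, hτ, e⟩ := hatt z
      have := hT' z hz
      exact Finset.mem_biUnion.2 ⟨τ, hτ, Finset.mem_filter.2 ⟨(mem_tileBox _ _ _ _).2 (by omega),
        by omega⟩⟩
    have h3 : (T'.card : ℤ) ≤ 9 * (2 ^ d) ^ 2 * (12 * 2 ^ b) :=
      le_trans (by exact_mod_cast Finset.card_le_card h2) h1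
    have h4 : (T'.card : ℤ) ≤ 2 ^ (b + 2 * d + 8) := by
      rw [show (2 : ℤ) ^ (b + 2 * d + 8) = 256 * ((2 ^ d) ^ 2 * 2 ^ b) by ring]
      have : (0 : ℤ) < (2 ^ d) ^ 2 * 2 ^ b := by positivity
      nlinarith
    exact_mod_cast h4
  · have h1 := hbi (fun τ => tileBox (2 ^ b) τ (2 ^ b)) ((3 * 2 ^ b) ^ 2) fun τ => by
      rw [card_tileBox _ _ _ (by positivity)]; apply le_of_eq; ring
    have h2 : T' ⊆ T.biUnion fun τ => tileBox (2 ^ b) τ (2 ^ b) := by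
      intro z hz
      obtain ⟨τ, hτ, e⟩ := hatt z
      have := hT' z hz
      push_cast at this
      exact Finset.mem_biUnion.2 ⟨τ, hτ, (mem_tileBox _ _ _ _).2 (by omega)⟩
    have h3 : (T'.card : ℤ) ≤ 9 * (2 ^ d) ^ 2 * (3 * 2 ^ b) ^ 2 :=
      le_trans (by exact_mod_cast Finset.card_le_card h2) h1
    have h4 : (T'.card : ℤ) ≤ (2 ^ (b + 2 * d + 8)) ^ 2 := by
      rw [show ((2 : ℤ) ^ (b + 2 * d + 8)) ^ 2 =
        65536 * (2 ^ d) ^ 2 * ((2 ^ d) ^ 2 * (2 ^ b) ^ 2) by ring]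
      have h5 : (0 : ℤ) < (2 ^ d) ^ 2 * (2 ^ b) ^ 2 := by positivity
      have h6 : (1 : ℤ) ≤ (2 ^ d) ^ 2 := one_le_pow₀ (one_le_pow₀ (by norm_num))
      nlinarith
    exact_mod_cast h4
  · by_contra hcon
    obtain ⟨x', hx', hn⟩ := hnear _ (not_lt.1 hcon)
    exact hΓ x' hx' _ (mem_gam s A hxy hx hy) hn
  · have := hle (s.pos x) _ (Finset.mem_image_of_mem (fun x => tile (2 ^ b) (s.pos x)) hx)
    have h2 := tile_spec hr (s.pos x)
    refine this.trans ?_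
    unfold sd
    simp only [max_le_iff]; omega

/-- The context given by thin-buffer decoupling. -/
theorem exists_ctx (hE : EntStmt) (hT : TBStmt) (q R : ℕ) (J Δ : ℝ) (hq : 1 ≤ q) (hJ : 0 < J)
    (hΔ : 0 < Δ) : ∃ (g : ℕ) (C : ℝ), 1 ≤ g ∧ 0 ≤ C ∧
      ∀ (Λ : Type) [Fintype Λ] [DecidableEq Λ] (s : Sys q R J Δ Λ) (A : Finset Λ),
        ∃ K : Ctx Λ g C, K.A = A ∧ K.Γ = gam s A ∧ K.φ = fun X => MI s.Ω X Aᶜ := by
  obtain ⟨γ, C, hγ, -, hC, H⟩ := hT q R J Δ hq hJ hΔ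
  obtain ⟨g, hg⟩ := exists_nat_gt (1 / γ)
  have hg0 : (0 : ℝ) < g := lt_trans (by positivity) hg
  have hg1 : 1 ≤ g := by exact_mod_cast hg0
  refine ⟨g, 2 * C, hg1, by positivity, fun Λ _ _ s A => ?_⟩
  obtain ⟨-, hb, hs, -⟩ := hE q Λ s.Ω s.gap.1
  refine ⟨⟨s.pos, s.inj, A, gam s A, fun X => MI s.Ω X Aᶜ, ?_⟩, rfl, rfl, rfl⟩
  intro X X' c w b hX hX' hbw hg' hw hsep hΓ
  rcases X'.eq_empty_or_nonempty with rfl | hne
  · rw [Finset.union_empty]
    have : 0 ≤ 2 * C / 2 ^ w := by positivity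
    linarith
  have hch := exists_chart s A X' hne c w b hbw hw hΓ
  have ha : w ≤ 2 * w - b + 8 := by omega
  generalize 2 * w - b + 8 = a at hch hg' ha
  obtain ⟨ch, hU, h0, hm⟩ := hch
  have h1 := H Λ s _ _ ch Nat.one_le_two_pow (by
    push_cast
    rw [← Real.rpow_natCast, ← Real.rpow_mul (by norm_num), ← Real.rpow_natCast]
    apply Real.rpow_le_rpow_of_exponent_le (by norm_num)
    have e1 : ((a / g : ℕ) : ℝ) ≤ a / g := Nat.cast_div_le
    have e2 : (a : ℝ) / g ≤ a * γ := by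
      rw [div_le_iff₀ hg0, mul_assoc]
      have : 1 ≤ γ * g := by rw [div_lt_iff₀ hγ] at hg; linarith
      nlinarith [(Nat.cast_nonneg a : (0 : ℝ) ≤ a)]
    have e3 : (a : ℝ) ≤ b + (a / g : ℕ) := by exact_mod_cast (by omega : a ≤ b + a / g)
    nlinarith)
  have h2 : MI s.Ω X' (Aᶜ ∪ X) ≤ MI s.Ω (ch.P 0) (ch.P (2 ^ b : ℕ))ᶜ := by
    refine MI_mono hs (fun x hx => Finset.mem_filter.2 ⟨hU ▸ hX' hx, h0 x hx⟩) (fun y hy => ?_) ?_
    · rw [Finset.mem_compl]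
      intro hy'
      obtain ⟨a1, a2⟩ := Finset.mem_filter.1 hy'
      rcases Finset.mem_union.1 hy with h | h
      · exact Finset.mem_compl.1 h (hU ▸ a1)
      · obtain ⟨x, hx, hn⟩ := hm _ a2
        exact hsep x hx y h hn
    · refine Finset.disjoint_left.2 fun x hx hx' => Finset.mem_compl.1 hx' ?_
      obtain ⟨a1, a2⟩ := Finset.mem_filter.1 hx
      exact Finset.mem_filter.2 ⟨a1, a2.trans (by positivity)⟩
  have h3 := MI_chain hs (fun A => (hb A).1) X X' Aᶜ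
  have h4 : Real.exp (-Real.sqrt ((2 ^ a : ℕ) : ℝ)) ≤ 2 / 2 ^ w := by
    have k1 := Real.quadratic_le_exp_of_nonneg (Real.sqrt_nonneg ((2 ^ a : ℕ) : ℝ))
    rw [Real.sq_sqrt (by positivity)] at k1
    have k2 : (2 : ℝ) ^ w ≤ ((2 ^ a : ℕ) : ℝ) := by
      push_cast; exact pow_le_pow_right₀ (by norm_num) (by omega)
    have k3 := Real.sqrt_nonneg ((2 ^ a : ℕ) : ℝ)
    rw [Real.exp_neg, inv_eq_one_div, div_le_div_iff₀ (Real.exp_pos _) (by positivity)]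
    linarith
  have h5 := mul_le_mul_of_nonneg_left h4 hC.le
  have h6 : C * (2 / 2 ^ w) = 2 * C / 2 ^ w := by ring
  show MI s.Ω (X ∪ X') Aᶜ ≤ MI s.Ω X Aᶜ + 2 * C / 2 ^ w
  linarith

end Crest.Agent.N336.Area
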